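import Vale.Agent.P213.Spec

/-!
# P213: atoms of augmented directed complexes

The atom of a basis element is a cell: its two chains in each degree have the same boundary.
-/

namespace Vale.Agent.P213.ADC

noncomputable section

variable {K : ADC}

theorem toZ_apply (c : K.B →₀ ℕ) (b : K.B) : K.toZ c b = (c b : ℤ) := by simp [toZ]

theorem toZ_zero : K.toZ 0 = 0 := by simp [toZ]

theorem toZ_single (b : K.B) (r : ℕ) : K.toZ (Finsupp.single b r) = Finsupp.single b (r : ℤ) := by
  simp [toZ]

/-- The boundary of an integral chain. -/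
def bdZ (K : ADC) : (K.B →₀ ℤ) →+ (K.B →₀ ℤ) :=
  Finsupp.liftAddHom fun b => (smulAddHom ℤ _).flip (K.d b)

theorem bdZ_single (b : K.B) (r : ℤ) : K.bdZ (Finsupp.single b r) = r • K.d b := by simp [bdZ]

theorem bdZ_toZ (c : K.B →₀ ℕ) : K.bdZ (K.toZ c) = K.bd c := by
  induction c using Finsupp.induction_linear with
  | zero => rw [toZ_zero, map_zero, bd_zero]
  | add x y hx hy => rw [toZ_add, map_add, bd_add, hx, hy]
  | single b r => rw [toZ_single, bdZ_single, bd_single, natCast_zsmul]

theorem bdZ_bdZ (hdd : ∀ b, ((K.d b).sum fun c r => r • K.d c) = 0) (z : K.B →₀ ℤ) :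
    K.bdZ (K.bdZ z) = 0 := by
  induction z using Finsupp.induction_linear with
  | zero => simp
  | add x y hx hy => rw [map_add, map_add, hx, hy, add_zero]
  | single b r =>
    have : K.bdZ (K.d b) = 0 := by
      rw [bdZ, Finsupp.liftAddHom_apply]
      exact hdd b
    rw [bdZ_single, map_zsmul, this, smul_zero]

theorem exists_of_bd {c : K.B →₀ ℕ} {t : K.B} (h : K.bd c t ≠ 0) :
    ∃ s, c s ≠ 0 ∧ K.d s t ≠ 0 := by
  by_contra hc
  push Not at hc
  refine h ?_
  rw [bd, Finsupp.sum, Finsupp.finsetSum_apply]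
  refine Finset.sum_eq_zero fun s hs => ?_
  rw [Finsupp.smul_apply, hc s (Finsupp.mem_support_iff.1 hs), smul_zero]

/-! ### Source and target parts -/

theorem part_apply (e : Bool) (z : K.B →₀ ℤ) (b : K.B) :
    K.part e z b = if e then (z b).toNat else (-z b).toNat := by
  cases e <;> simp [part]

theorem part_zero (e : Bool) : K.part e 0 = 0 := by
  ext b
  rw [part_apply]
  simp

theorem toZ_part_sub (z : K.B →₀ ℤ) :
    K.toZ (K.part true z) - K.toZ (K.part false z) = z := by
  ext b
  simp only [Finsupp.sub_apply, toZ_apply, part_apply, if_true]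
  simp only [Bool.false_eq_true, if_false]
  omega

theorem part_ne_zero {e : Bool} {z : K.B →₀ ℤ} {b : K.B} (h : K.part e z b ≠ 0) : z b ≠ 0 := by
  intro h0
  refine h ?_
  rw [part_apply, h0]
  simp

theorem part_disjoint (z : K.B →₀ ℤ) (b : K.B) :
    K.part true z b = 0 ∨ K.part false z b = 0 := by
  simp only [part_apply, if_true, Bool.false_eq_true, if_false]
  omega

theorem part_eq {z : K.B →₀ ℤ} {X Y : K.B →₀ ℕ} (h : z = K.toZ X - K.toZ Y)
    (hd : ∀ b, X b = 0 ∨ Y b = 0) : K.part true z = X ∧ K.part false z = Y := by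
  subst h
  refine ⟨?_, ?_⟩ <;> ext b <;>
    simp only [part_apply, if_true, Bool.false_eq_true, if_false, Finsupp.sub_apply, toZ_apply] <;>
    rcases hd b with h | h <;> omega

/-! ### Atoms -/

theorem atomX_gt {b : K.B} {k : ℕ} (h : K.deg b < k) (e : Bool) : K.atomX b k e = 0 :=
  if_neg (by omega)

theorem atomX_deg_self (b : K.B) (e : Bool) : K.atomX b (K.deg b) e = Finsupp.single b 1 := by
  rw [atomX, if_pos le_rfl, Nat.sub_self]
  rfl

theorem atomX_succ {b : K.B} {k : ℕ} (h : k < K.deg b) (e : Bool) :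
    K.atomX b k e = K.part e (K.bd (K.atomX b (k + 1) e)) := by
  rw [atomX, atomX, if_pos h.le, if_pos (show k + 1 ≤ K.deg b from h),
    show K.deg b - k = (K.deg b - (k + 1)) + 1 by omega]
  rfl

theorem atomX_deg (hdeg : ∀ b c, K.d b c ≠ 0 → K.deg c + 1 = K.deg b) (b : K.B) :
    ∀ j k e c, K.deg b ≤ k + j → K.atomX b k e c ≠ 0 → K.deg c = k := by
  intro j
  induction j with
  | zero =>
    intro k e c hk hc
    rcases Nat.lt_or_eq_of_le (show K.deg b ≤ k from hk) with h | rfl
    · simp [atomX_gt h] at hc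
    · rw [atomX_deg_self] at hc
      rw [(Finsupp.single_apply_ne_zero.1 hc).1]
  | succ j ih =>
    intro k e c hk hc
    by_cases h : K.deg b ≤ k + j
    · exact ih k e c h hc
    rw [atomX_succ (by omega)] at hc
    obtain ⟨s, hs, hst⟩ := exists_of_bd (part_ne_zero hc)
    have h1 := ih (k + 1) e s (by omega) hs
    have h2 := hdeg s c hst
    omega

theorem atomX_bd_eq (hdd : ∀ b, ((K.d b).sum fun c r => r • K.d c) = 0) (b : K.B) :
    ∀ j k, K.deg b ≤ k + j → K.bd (K.atomX b k true) = K.bd (K.atomX b k false) := by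
  intro j
  induction j with
  | zero =>
    intro k hk
    rcases Nat.lt_or_eq_of_le (show K.deg b ≤ k from hk) with h | rfl
    · simp [atomX_gt h]
    · rw [atomX_deg_self, atomX_deg_self]
  | succ j ih =>
    intro k hk
    by_cases h : K.deg b ≤ k + j
    · exact ih k h
    have hlt : k < K.deg b := by omega
    rw [atomX_succ hlt true, atomX_succ hlt false, ih (k + 1) (by omega)]
    simp only [← bdZ_toZ]
    rw [← sub_eq_zero, ← map_sub, toZ_part_sub, bdZ_bdZ hdd]

theorem atomX_boundary (hdd : ∀ b, ((K.d b).sum fun c r => r • K.d c) = 0) (b : K.B) (k : ℕ)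
    (e : Bool) :
    K.bd (K.atomX b (k + 1) e) = K.toZ (K.atomX b k true) - K.toZ (K.atomX b k false) := by
  rcases lt_trichotomy k (K.deg b) with h | rfl | h
  · have hb := atomX_bd_eq hdd b (K.deg b) (k + 1) (by omega)
    rw [atomX_succ h, atomX_succ h, hb, toZ_part_sub]
    cases e
    · rfl
    · exact hb
  · rw [atomX_gt (Nat.lt_succ_self _), bd_zero, atomX_deg_self, atomX_deg_self, sub_self]
  · rw [atomX_gt (by omega), atomX_gt h, atomX_gt h, bd_zero, sub_self]

/-- The atom of a basis element of a good complex, as a cell. -/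
def atom (hK : K.Good) (b : K.B) : K.Cell where
  x k e := K.atomX b k e
  deg_eq k e c hc := atomX_deg hK.deg_d b (K.deg b) k e c (by omega) hc
  aug e := hK.unital b e
  boundary k e := atomX_boundary hK.dd b k e
  bounded := ⟨K.deg b, fun _ e hk => atomX_gt hk e⟩

theorem isAtom_atom (hK : K.Good) (b : K.B) : K.IsAtom b (atom hK b) := fun _ _ => rfl

end

end Vale.Agent.P213.ADC

namespace Vale.Agent.P213

/-- Atoms are cells. -/
theorem atomCell : Spec.AtomCell := fun _ hK b => ⟨ADC.atom hK b, ADC.isAtom_atom hK b⟩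

end Vale.Agent.P213
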