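import Vale.Agent.P213.Steiner.Item

/-!
# P213: the omega-category of a good complex is free on its atoms

A functor on the `k`-skeleton and values on the atoms of dimension `k + 1` are extended level by
level: the value of an item of level `r + 1` is the composite along `r` of the values of items of
level `r`, and it does not depend on the order of the decomposition, by exchange.
-/

namespace Vale.Agent.P213

open CategoryTheory

universe u v

noncomputable section

namespace OmCat

variable (Y : OmCat.{u}) {n p r : ℕ} {U y w : Y.carrier}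

theorem comp_self (h : Y.s n y = y) : Y.comp n y y = y := by
  have e := Y.id_comp n y
  rwa [h] at e

theorem wh_right (hpr : p < r) (hc : Y.t r U = Y.s r y) (hw : Y.s r w = w)
    (h : Y.t p (Y.comp r U y) = Y.s p w) :
    Y.t p U = Y.s p w ∧ Y.t p y = Y.s p w ∧
      Y.t r (Y.comp p U w) = Y.s r (Y.comp p y w) ∧
      Y.comp r (Y.comp p U w) (Y.comp p y w) = Y.comp p (Y.comp r U y) w := by
  rw [Y.t_comp p r _ _ hc, if_pos hpr.le] at h
  have hU : Y.t p U = Y.s p w := by
    have h1 := congrArg (Y.t p) hc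
    rw [Y.tt, min_eq_left hpr.le, Y.ts, if_pos hpr] at h1
    rw [h1, h]
  have hw' : Y.t r w = w := Y.t_eq_self_of_le hw le_rfl
  refine ⟨hU, h, ?_, ?_⟩
  · rw [Y.t_comp r p _ _ hU, if_neg (by omega), Y.s_comp r p _ _ h, if_neg (by omega), hc, hw, hw']
  · rw [← Y.interchange p r U y w w hpr hc (by rw [hw', hw]) hU, Y.comp_self hw]

theorem wh_left (hpr : p < r) (hc : Y.t r U = Y.s r y) (hw : Y.s r w = w)
    (h : Y.t p w = Y.s p (Y.comp r U y)) :
    Y.t p w = Y.s p U ∧ Y.t p w = Y.s p y ∧
      Y.t r (Y.comp p w U) = Y.s r (Y.comp p w y) ∧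
      Y.comp r (Y.comp p w U) (Y.comp p w y) = Y.comp p w (Y.comp r U y) := by
  rw [Y.s_comp p r _ _ hc, if_pos hpr.le] at h
  have hy : Y.t p w = Y.s p y := by
    have h1 := congrArg (Y.s p) hc
    rw [Y.ss, min_eq_left hpr.le, Y.st, if_pos hpr] at h1
    rw [h, h1]
  have hw' : Y.t r w = w := Y.t_eq_self_of_le hw le_rfl
  refine ⟨h, hy, ?_, ?_⟩
  · rw [Y.t_comp r p _ _ h, if_neg (by omega), Y.s_comp r p _ _ hy, if_neg (by omega), hc, hw, hw']
  · rw [← Y.interchange p r w w U y hpr (by rw [hw', hw]) hc h, Y.comp_self hw]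

end OmCat

namespace ADC

variable {K : ADC}

theorem eq_zero_of_sum {c : K.B →₀ ℕ} (h : (c.sum fun _ m => m) = 0) : c = 0 := by
  ext b
  by_contra hb
  exact hb (Finset.sum_eq_zero_iff.1 h b (Finsupp.mem_support_iff.2 hb))

theorem eq_of_le_of_sum {c d : K.B →₀ ℕ} (hle : ∀ b, c b ≤ d b) (hc : (c.sum fun _ m => m) = 1)
    (hd : (d.sum fun _ m => m) = 1) : d = c := by
  have he : d = c + (d - c) := by
    ext b
    have := hle b
    simp only [Finsupp.add_apply, Finsupp.tsub_apply]
    omega
  rw [he, Finsupp.sum_add_index' (fun _ => rfl) (fun _ _ _ => rfl), hc] at hd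
  rw [he, eq_zero_of_sum (show ((d - c).sum fun _ m => m) = 0 by omega), add_zero]

theorem exists_single_of_sum {c : K.B →₀ ℕ} (hc : (c.sum fun _ m => m) = 1) :
    ∃ b, c = Finsupp.single b 1 := by
  classical
  obtain ⟨b, hb⟩ : ∃ b, c b ≠ 0 := by
    by_contra h
    push Not at h
    rw [show c = 0 from Finsupp.ext h, Finsupp.sum_zero_index] at hc
    exact zero_ne_one hc
  refine ⟨b, eq_of_le_of_sum (c := Finsupp.single b 1) (fun a => ?_)
    (Finsupp.sum_single_index rfl) hc⟩
  by_cases h : a = b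
  · subst h; rw [Finsupp.single_eq_same]; omega
  · rw [Finsupp.single_eq_of_ne h]; exact Nat.zero_le _

theorem atomSum_flat {S : K.B →₀ ℕ} {r : ℕ} (hS : ∀ c, S c ≠ 0 → K.deg c = r + 1) {l : ℕ}
    (hl : r < l) (e : Bool) : atomSum S l e = if l = r + 1 then S else 0 := by
  split_ifs with h
  · subst h
    conv_rhs => rw [← extN_single_self S]
    refine Finsupp.sum_congr fun c hc => ?_
    dsimp only
    rw [← hS c (Finsupp.mem_support_iff.1 hc), atomX_deg_self]
  · refine Finset.sum_eq_zero fun c hc => ?_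
    have := hS c (Finsupp.mem_support_iff.1 hc)
    show S c • K.atomX c l e = 0
    rw [atomX_gt (by omega), smul_zero]

variable {X : OmCat.{u}} {k : ℕ} (F : Fun (K.nu.skel k) X)

/-- The given functor, on all cells through their source of dimension `k`. -/
def F0 (p : K.Cell) : X.carrier := F.toFun ⟨K.nu.s k p, K.nu.fixed_s le_rfl p⟩

theorem F0_eq {p : K.Cell} (hp : K.nu.s k p = p) (q : (K.nu.skel k).carrier) (h : q.1 = p) :
    F.toFun q = F0 F p := congrArg F.toFun (Subtype.ext (h.trans hp.symm))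

theorem F0_s (i : ℕ) (p : K.Cell) : X.s i (F0 F p) = F0 F (K.nu.s i p) := by
  rw [F0, ← F.map_s]
  refine congrArg F.toFun (Subtype.ext ?_)
  show K.nu.s i (K.nu.s k p) = K.nu.s k (K.nu.s i p)
  rw [K.nu.ss, K.nu.ss, min_comm]

theorem F0_t {i : ℕ} {p : K.Cell} (h : i < k ∨ K.nu.s k p = p) :
    X.t i (F0 F p) = F0 F (K.nu.t i p) := by
  rw [F0, ← F.map_t]
  refine congrArg F.toFun (Subtype.ext ?_)
  show K.nu.t i (K.nu.s k p) = K.nu.s k (K.nu.t i p)
  rcases h with h | h
  · rw [K.nu.ts, if_pos h, K.nu.st, if_neg (by omega)]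
  · rw [h]; exact ((K.nu.skel_closed k).t i p h).symm

theorem F0_dim (p : K.Cell) {i : ℕ} (hi : k ≤ i) : X.s i (F0 F p) = F0 F p := by
  refine (F0_s F i p).trans (congrArg F.toFun (Subtype.ext ?_))
  show K.nu.s k (K.nu.s i p) = K.nu.s k p
  rw [K.nu.ss, min_eq_left hi]

open Classical in
theorem F0_comp {i : ℕ} {x y : K.Cell} (e : K.nu.t i x = K.nu.s i y) (hx : K.nu.s k x = x)
    (hy : K.nu.s k y = y) :
    F0 F (K.nu.comp i x y) = X.comp i (F0 F x) (F0 F y) := by
  have h := F.map_comp i ⟨x, hx⟩ ⟨y, hy⟩ (Subtype.ext e)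
  rw [F0_eq F hx ⟨x, hx⟩ rfl, F0_eq F hy ⟨y, hy⟩ rfl] at h
  rw [← h]
  refine (F0_eq F (K.nu.comp_fixed e hx hy) _ ?_).symm
  exact congrArg Subtype.val (dif_pos e)

/-- Values along decompositions into items of level `r`. -/
inductive Ev (φ : K.B → K.Cell → X.carrier) (r : ℕ) :
    (K.B →₀ ℕ) → K.Cell → X.carrier → Prop
  | nil (x : K.Cell) : K.nu.s r x = x → Ev φ r 0 x (F0 F x)
  | cons (b : K.B) (U y : K.Cell) (S : K.B →₀ ℕ) (z : X.carrier) :
      IsItem (k + 1) r b U → Ev φ r S y z → K.nu.t r U = K.nu.s r y →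
        Ev φ r (Finsupp.single b 1 + S) (K.nu.comp r U y) (X.comp r (φ b U) z)

/-- What is known about the values of items of level `r`. -/
structure Ok (φ : K.B → K.Cell → X.carrier) (r : ℕ) : Prop where
  low : ∀ b U, IsItem (k + 1) r b U → K.deg b ≤ k → φ b U = F0 F U
  ends_s : ∀ b U, IsItem (k + 1) r b U → ∀ i ≤ k, X.s i (φ b U) = F0 F (K.nu.s i U)
  ends_t : ∀ b U, IsItem (k + 1) r b U → ∀ i ≤ k, X.t i (φ b U) = F0 F (K.nu.t i U)
  dim : ∀ b U, IsItem (k + 1) r b U → X.s (k + 1) (φ b U) = φ b U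
  whR : ∀ b U u p, IsItem (k + 1) r b U → K.nu.s r u = u → p < r → K.nu.t p U = K.nu.s p u →
    φ b (K.nu.comp p U u) = X.comp p (φ b U) (F0 F u)
  whL : ∀ b U u p, IsItem (k + 1) r b U → K.nu.s r u = u → p < r → K.nu.t p u = K.nu.s p U →
    φ b (K.nu.comp p u U) = X.comp p (F0 F u) (φ b U)

variable {F} {φ : K.B → K.Cell → X.carrier} {r : ℕ} {S T : K.B →₀ ℕ} {x y : K.Cell}
  {z w : X.carrier}

theorem Ev.above (h : Ev F φ r S x z) : Above r S x := by
  induction h with
  | nil x hx =>
    intro l e hl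
    rw [Cell.x_of_fixed hx hl, atomSum, extN_zero]
  | cons b U y S z hU _ hc ih =>
    intro l e hl
    show (Cell.comp r U y).x l e = _
    rw [Cell.comp_x hc, Cell.compX, if_neg (by omega), if_neg (by omega), hU.eq l e hl, ih l e hl,
      atomSum, atomSum, extN_add, extN_single, one_smul]

theorem Ev.tops (h : Ev F φ r S x z) : ∀ c, S c ≠ 0 → r < K.deg c ∧ K.deg c ≤ k + 1 := by
  classical
  induction h with
  | nil x hx => simp
  | cons b U y S z hU _ hc ih =>
    intro c hc'
    by_cases hcb : c = b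
    · subst hcb; exact ⟨hU.lt, hU.le⟩
    · rw [Finsupp.add_apply, Finsupp.single_eq_of_ne hcb, zero_add] at hc'
      exact ih c hc'

theorem IsItem.fixed {top : ℕ} {b : K.B} {U : K.Cell} (h : IsItem top r b U) {j : ℕ}
    (hrj : r ≤ j) (hbj : K.deg b ≤ j) : K.nu.s j U = U :=
  Cell.fixed_of_zero fun l e hl => by rw [h.eq l e (by omega), atomX_gt (by omega)]

theorem Ev.fixed (h : Ev F φ r S x z) {j : ℕ} (hrj : r ≤ j)
    (hj : ∀ c, S c ≠ 0 → K.deg c ≤ j) : K.nu.s j x = x :=
  Cell.fixed_of_zero fun l e hl => by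
    rw [h.above l e (by omega)]
    refine Finset.sum_eq_zero fun c hc => ?_
    show S c • K.atomX c l e = 0
    have := hj c (Finsupp.mem_support_iff.1 hc)
    rw [atomX_gt (by omega), smul_zero]

theorem item_wh_right {b : K.B} {U u : K.Cell} {top p : ℕ} (hU : IsItem top r b U)
    (hu : K.nu.s r u = u) (hp : p < r) (h : K.nu.t p U = K.nu.s p u) :
    IsItem top r b (K.nu.comp p U u) :=
  ⟨hU.lt, hU.le, fun l e hl => by
    show (Cell.comp p U u).x l e = _
    rw [Cell.comp_x h, Cell.compX, if_neg (by omega), if_neg (by omega), Cell.x_of_fixed hu hl,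
      add_zero, hU.eq l e hl]⟩

theorem item_wh_left {b : K.B} {U u : K.Cell} {top p : ℕ} (hU : IsItem top r b U)
    (hu : K.nu.s r u = u) (hp : p < r) (h : K.nu.t p u = K.nu.s p U) :
    IsItem top r b (K.nu.comp p u U) :=
  ⟨hU.lt, hU.le, fun l e hl => by
    show (Cell.comp p u U).x l e = _
    rw [Cell.comp_x h, Cell.compX, if_neg (by omega), if_neg (by omega), Cell.x_of_fixed hu hl,
      zero_add, hU.eq l e hl]⟩

section

variable (hφ : Ok F φ r) (hr : r ≤ k)
include hφ hr

theorem Ev.ends (h : Ev F φ r S x z) :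
    (∀ i ≤ k, X.s i z = F0 F (K.nu.s i x)) ∧ (∀ i ≤ k, X.t i z = F0 F (K.nu.t i x)) ∧
      X.s (k + 1) z = z := by
  induction h with
  | nil x hx =>
    exact ⟨fun i _ => F0_s F i x, fun i _ => F0_t F (Or.inr (K.nu.s_eq_self_of_le hx hr)),
      F0_dim F x (Nat.le_succ k)⟩
  | cons b U y S z hU _ hc ih =>
    obtain ⟨hs, ht, hd⟩ := ih
    have hcX : X.t r (φ b U) = X.s r z := by rw [hφ.ends_t b U hU r hr, hs r hr, hc]
    refine ⟨fun i hi => ?_, fun i hi => ?_, ?_⟩
    · rw [X.s_comp i r _ _ hcX, K.nu.s_comp i r _ _ hc]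
      by_cases h1 : i ≤ r
      · rw [if_pos h1, if_pos h1, hφ.ends_s b U hU i hi]
      · rw [if_neg h1, if_neg h1, hφ.ends_s b U hU i hi, hs i hi, F0_comp F]
        · rw [K.nu.ts, if_pos (by omega), K.nu.ss, min_eq_left (by omega), hc]
        · exact K.nu.fixed_s hi U
        · exact K.nu.fixed_s hi y
    · rw [X.t_comp i r _ _ hcX, K.nu.t_comp i r _ _ hc]
      by_cases h1 : i ≤ r
      · rw [if_pos h1, if_pos h1, ht i hi]
      · rw [if_neg h1, if_neg h1, hφ.ends_t b U hU i hi, ht i hi, F0_comp F]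
        · rw [K.nu.tt, min_eq_left (by omega), K.nu.st, if_pos (by omega), hc]
        · exact K.nu.fixed_t hi U
        · exact K.nu.fixed_t hi y
    · exact X.comp_fixed hcX (hφ.dim b U hU) hd

theorem Ev.composable {U : K.Cell} {b : K.B} (hU : IsItem (k + 1) r b U) (h : Ev F φ r S y z)
    (hc : K.nu.t r U = K.nu.s r y) : X.t r (φ b U) = X.s r z := by
  rw [hφ.ends_t b U hU r hr, (h.ends hφ hr).1 r hr, hc]

theorem Ev.low (h : Ev F φ r S x z) (hS : ∀ c, S c ≠ 0 → K.deg c ≤ k) : z = F0 F x := by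
  induction h with
  | nil x hx => rfl
  | cons b U y S z hU hy hc ih =>
    have hb : K.deg b ≤ k := hS b (by simp)
    have hS' : ∀ c, S c ≠ 0 → K.deg c ≤ k := fun c hc' => hS c (by simp [hc'])
    rw [hφ.low b U hU hb, ih hS', ← F0_comp F hc (hU.fixed hr hb) (hy.fixed hr hS')]

theorem Ev.whR (h : Ev F φ r S x z) {u : K.Cell} {p : ℕ} (hu : K.nu.s r u = u) (hp : p < r)
    (e : K.nu.t p x = K.nu.s p u) :
    Ev F φ r S (K.nu.comp p x u) (X.comp p z (F0 F u)) := by
  induction h with
  | nil x hx =>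
    rw [← F0_comp F e (K.nu.s_eq_self_of_le hx hr) (K.nu.s_eq_self_of_le hu hr)]
    exact Ev.nil _ (K.nu.comp_fixed e hx hu)
  | cons b U y S z hU hy hc ih =>
    obtain ⟨e1, e2, e3, e4⟩ := K.nu.wh_right hp hc hu e
    have hx : Ev F φ r (Finsupp.single b 1 + S) _ _ := Ev.cons b U y S z hU hy hc
    have hu' : X.s r (F0 F u) = F0 F u := by rw [F0_s, hu]
    have eX : X.t p (X.comp r (φ b U) z) = X.s p (F0 F u) := by
      rw [(hx.ends hφ hr).2.1 p (by omega), e, F0_s]
    obtain ⟨-, -, -, f4⟩ := X.wh_right hp (Ev.composable hφ hr hU hy hc) hu' eX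
    rw [← e4, ← f4, ← hφ.whR b U u p hU hu hp e1]
    exact Ev.cons b _ _ S _ (item_wh_right hU hu hp e1) (ih e2) e3

theorem Ev.whL (h : Ev F φ r S x z) {u : K.Cell} {p : ℕ} (hu : K.nu.s r u = u) (hp : p < r)
    (e : K.nu.t p u = K.nu.s p x) :
    Ev F φ r S (K.nu.comp p u x) (X.comp p (F0 F u) z) := by
  induction h with
  | nil x hx =>
    rw [← F0_comp F e (K.nu.s_eq_self_of_le hu hr) (K.nu.s_eq_self_of_le hx hr)]
    exact Ev.nil _ (K.nu.comp_fixed e hu hx)
  | cons b U y S z hU hy hc ih =>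
    obtain ⟨e1, e2, e3, e4⟩ := K.nu.wh_left hp hc hu e
    have hx : Ev F φ r (Finsupp.single b 1 + S) _ _ := Ev.cons b U y S z hU hy hc
    have hu' : X.s r (F0 F u) = F0 F u := by rw [F0_s, hu]
    have eX : X.t p (F0 F u) = X.s p (X.comp r (φ b U) z) := by
      rw [(hx.ends hφ hr).1 p (by omega), ← e, F0_t F (Or.inr (K.nu.s_eq_self_of_le hu hr))]
    obtain ⟨-, -, -, f4⟩ := X.wh_left hp (Ev.composable hφ hr hU hy hc) hu' eX
    rw [← e4, ← f4, ← hφ.whL b U u p hU hu hp e1]
    exact Ev.cons b _ _ S _ (item_wh_left hU hu hp e1) (ih e2) e3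

theorem Ev.append (h : Ev F φ r S x z) (h' : Ev F φ r T y w) (e : K.nu.t r x = K.nu.s r y) :
    Ev F φ r (S + T) (K.nu.comp r x y) (X.comp r z w) := by
  induction h with
  | nil x hx =>
    have h1 : x = K.nu.s r y := (K.nu.t_eq_self_of_le hx le_rfl).symm.trans e
    rw [h1, zero_add, K.nu.id_comp, ← (h'.ends hφ hr).1 r hr, X.id_comp]
    exact h'
  | cons b U y0 S z hU hy hc ih =>
    have e' : K.nu.t r y0 = K.nu.s r y := by
      rwa [K.nu.t_comp r r _ _ hc, if_pos le_rfl] at e
    have hzw : X.t r z = X.s r w := by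
      rw [(hy.ends hφ hr).2.1 r hr, (h'.ends hφ hr).1 r hr, e']
    rw [K.nu.assoc r _ _ _ hc e', X.assoc r _ _ _ (Ev.composable hφ hr hU hy hc) hzw, add_assoc]
    exact Ev.cons b U _ _ _ hU (ih e') (by rw [K.nu.s_comp r r _ _ e', if_pos le_rfl, hc])

theorem Ev.hom (h : Ev F φ r S x z) (h' : Ev F φ r T y w) {p : ℕ} (hp : p < r)
    (e : K.nu.t p x = K.nu.s p y) :
    Ev F φ r (S + T) (K.nu.comp p x y) (X.comp p z w) := by
  obtain ⟨e1, -, -, -⟩ := K.nu.exch_composable hp e
  have eR : K.nu.t p x = K.nu.s p (K.nu.s r y) := by rw [K.nu.ss, min_eq_left hp.le, e]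
  have eL : K.nu.t p (K.nu.t r x) = K.nu.s p y := by rw [K.nu.tt, min_eq_left hp.le, e]
  have hR := h.whR hφ hr (K.nu.fixed_s le_rfl y) hp eR
  have hL := h'.whL hφ hr (K.nu.fixed_t le_rfl x) hp eL
  obtain ⟨c1, c2⟩ := K.nu.exch' hp e
  have hh := hR.append hφ hr hL c1
  rw [c2] at hh
  have eX : X.t p z = X.s p w := by
    rw [(h.ends hφ hr).2.1 p (by omega), (h'.ends hφ hr).1 p (by omega), e]
  rw [← (h'.ends hφ hr).1 r hr, ← (h.ends hφ hr).2.1 r hr, (X.exch' hp eX).2] at hh
  exact hh

variable [LinearOrder K.B] (hK : K.Ordered)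
include hK

omit hφ hr in
theorem exists_ev (hS : ∀ c, S c ≠ 0 → r < K.deg c ∧ K.deg c ≤ k + 1) (hx : Above r S x) :
    ∃ z, Ev F φ r S x z := by
  classical
  induction hn : (S.sum fun _ m => m) generalizing S x with
  | zero =>
    obtain rfl := eq_zero_of_sum hn
    exact ⟨_, Ev.nil x (Cell.fixed_of_zero fun l e hl => by rw [hx l e hl, atomSum, extN_zero])⟩
  | succ n ih =>
    have hne : S.support.Nonempty := by
      by_contra h
      rw [Finset.not_nonempty_iff_eq_empty, Finsupp.support_eq_empty] at h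
      simp [h] at hn
    set m := S.support.min' hne
    have hmS : S m ≠ 0 := Finsupp.mem_support_iff.1 (Finset.min'_mem _ _)
    have hmin : ∀ c, S c ≠ 0 → m ≤ c := fun c hc =>
      Finset.min'_le _ _ (Finsupp.mem_support_iff.2 hc)
    have he : S = Finsupp.single m 1 + (S - Finsupp.single m 1) := by
      ext c
      by_cases h : c = m
      · subst h; simp; omega
      · simp [Finsupp.single_eq_of_ne h]
    have hsub : ∀ c, (S - Finsupp.single m 1 : K.B →₀ ℕ) c ≠ 0 → S c ≠ 0 := fun c hc => by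
      simp only [Finsupp.tsub_apply] at hc; omega
    obtain ⟨U, y, hU, hy, hc, hxe⟩ := exists_first hK (hS m hmS).1 (hS m hmS).2
      (fun c hc => hmin c (hsub c hc)) (fun c hc => (hS c (hsub c hc)).1) (by rw [← he]; exact hx)
    obtain ⟨z, hz⟩ := ih (S := S - Finsupp.single m 1) (fun c hc => hS c (hsub c hc)) hy (by
      rw [he, Finsupp.sum_add_index' (fun _ => rfl) (fun _ _ _ => rfl),
        Finsupp.sum_single_index rfl] at hn
      omega)
    rw [he, hxe]
    exact ⟨_, Ev.cons m U y _ z hU hz hc⟩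

omit hφ hr in
theorem Ev.zero_eq (h : Ev F φ r S x z) (hS : S = 0) : z = F0 F x := by
  cases h with
  | nil => rfl
  | cons b U y S z =>
    have := congrArg (fun c : K.B →₀ ℕ => c b) hS
    simp at this

theorem Ev.first (h : Ev F φ r S x z) (m : K.B) (hm : S m ≠ 0)
    (hmin : ∀ c, S c ≠ 0 → m ≤ c) :
    ∃ U y S' z', IsItem (k + 1) r m U ∧ S = Finsupp.single m 1 + S' ∧ Ev F φ r S' y z' ∧
      K.nu.t r U = K.nu.s r y ∧ x = K.nu.comp r U y ∧ z = X.comp r (φ m U) z' := by
  classical
  induction h with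
  | nil => simp at hm
  | cons b U y S z hU hy hc ih =>
    by_cases hbm : b = m
    · subst hbm
      exact ⟨U, y, S, z, hU, rfl, hy, hc, rfl, rfl⟩
    have hSm : S m ≠ 0 := by
      rwa [Finsupp.add_apply, Finsupp.single_eq_of_ne (Ne.symm hbm), zero_add] at hm
    obtain ⟨W, y', S', z', hW, rfl, hy', hcW, rfl, rfl⟩ :=
      ih hSm fun c hc' => hmin c (by simp only [Finsupp.add_apply]; omega)
    have hlt : m < b := lt_of_le_of_ne (hmin b (by simp)) (Ne.symm hbm)
    have hUW : K.nu.t r U = K.nu.s r W := by rw [hc, K.nu.s_comp r r _ _ hcW, if_pos le_rfl]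
    cases r with
    | zero =>
      exfalso
      obtain ⟨v, hv⟩ := exists_single_of_sum (hK.good.unital m false)
      obtain ⟨v', hv'⟩ := exists_single_of_sum (hK.good.unital b true)
      have hu : U.x 0 true = K.atomX b 0 true :=
        eq_of_le_of_sum (fun c => hU.level_le hK c true) (hK.good.unital b true) (U.aug true)
      have hw : W.x 0 false = K.atomX m 0 false :=
        eq_of_le_of_sum (fun c => hW.level_le hK c false) (hK.good.unital m false) (W.aug false)
      have heq := (Cell.composable_iff.1 hUW).1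
      rw [hu, hw, hv, hv'] at heq
      have hvv : v' = v := Finsupp.single_left_injective one_ne_zero heq
      have h1 : v < m := hK.neg_lt hW.lt (by simp [hv])
      have h2 : b < v' := hK.lt_pos hU.lt (by simp [hv'])
      exact lt_irrefl b ((hvv ▸ h2).trans (h1.trans hlt))
    | succ q =>
      obtain ⟨y0, z0, hy0, hz0, hc0, rfl, rfl⟩ := exists_swap hK hU hW hlt hUW
      obtain ⟨e1, e2, e3, e4⟩ := K.nu.exch_composable (Nat.lt_succ_self q) hc0
      obtain ⟨c1, c2⟩ := K.nu.exch' (Nat.lt_succ_self q) hc0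
      obtain ⟨d1, d2⟩ := K.nu.exch (Nat.lt_succ_self q) hc0
      have hW' : IsItem (k + 1) (q + 1) m (K.nu.comp q y0 (K.nu.s (q + 1) z0)) :=
        item_wh_right hy0 (K.nu.fixed_s le_rfl z0) (Nat.lt_succ_self q) e3
      have hU' : IsItem (k + 1) (q + 1) b (K.nu.comp q (K.nu.t (q + 1) y0) z0) :=
        item_wh_left hz0 (K.nu.fixed_t le_rfl y0) (Nat.lt_succ_self q) e4
      have v1 := hφ.whL b z0 _ q hz0 (K.nu.fixed_s le_rfl y0) (Nat.lt_succ_self q) e1
      have v2 := hφ.whR m y0 _ q hy0 (K.nu.fixed_t le_rfl z0) (Nat.lt_succ_self q) e2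
      have v3 := hφ.whR m y0 _ q hy0 (K.nu.fixed_s le_rfl z0) (Nat.lt_succ_self q) e3
      have v4 := hφ.whL b z0 _ q hz0 (K.nu.fixed_t le_rfl y0) (Nat.lt_succ_self q) e4
      rw [← hφ.ends_s m y0 hy0 (q + 1) hr] at v1
      rw [← hφ.ends_t b z0 hz0 (q + 1) hr] at v2
      rw [← hφ.ends_s b z0 hz0 (q + 1) hr] at v3
      rw [← hφ.ends_t m y0 hy0 (q + 1) hr] at v4
      have hX0 : X.t q (φ m y0) = X.s q (φ b z0) := by
        rw [hφ.ends_t m y0 hy0 q (by omega), hφ.ends_s b z0 hz0 q (by omega), hc0]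
      have hU'y : K.nu.t (q + 1) (K.nu.comp q (K.nu.t (q + 1) y0) z0) = K.nu.s (q + 1) y' := by
        have h1 := congrArg (K.nu.t (q + 1)) (d2.trans c2.symm)
        rw [K.nu.t_comp _ _ _ _ d1, if_pos le_rfl, K.nu.t_comp _ _ _ _ c1, if_pos le_rfl] at h1
        rw [← h1, hcW]
      refine ⟨_, _, Finsupp.single b 1 + S', _, hW', ?_, Ev.cons b _ y' S' z' hU' hy' hU'y, ?_,
        ?_, ?_⟩
      · abel
      · rw [c1, K.nu.s_comp _ _ _ _ hU'y, if_pos le_rfl]
      · rw [← K.nu.assoc _ _ _ _ d1 hcW, d2, ← c2, K.nu.assoc _ _ _ _ c1 hU'y]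
      · have g1 : X.t (q + 1) (φ b (K.nu.comp q (K.nu.t (q + 1) y0) z0)) = X.s (q + 1) z' :=
          Ev.composable hφ hr hU' hy' hU'y
        have g2 := Ev.composable hφ hr hW hy' hcW
        rw [v4] at g1 ⊢
        rw [v2] at g2 ⊢
        rw [v1, v3, ← X.assoc _ _ _ _ (X.exch (Nat.lt_succ_self q) hX0).1 g2,
          (X.exch (Nat.lt_succ_self q) hX0).2, ← (X.exch' (Nat.lt_succ_self q) hX0).2,
          X.assoc _ _ _ _ (X.exch' (Nat.lt_succ_self q) hX0).1 g1]

theorem Ev.unique {z' : X.carrier} (h : Ev F φ r S x z) (h' : Ev F φ r S x z') : z = z' := by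
  classical
  induction hn : (S.sum fun _ m => m) generalizing S x z z' with
  | zero =>
    obtain rfl := eq_zero_of_sum hn
    rw [Ev.zero_eq hK h rfl, Ev.zero_eq hK h' rfl]
  | succ n ih =>
    have hne : S.support.Nonempty := by
      by_contra hh
      rw [Finset.not_nonempty_iff_eq_empty, Finsupp.support_eq_empty] at hh
      simp [hh] at hn
    have hmS := Finsupp.mem_support_iff.1 (Finset.min'_mem _ hne)
    have hmin : ∀ c, S c ≠ 0 → S.support.min' hne ≤ c := fun c hc =>
      Finset.min'_le _ _ (Finsupp.mem_support_iff.2 hc)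
    obtain ⟨U, y, S₁, z₁, hU, hS₁, hy, hc, hx, rfl⟩ := h.first hφ hr hK _ hmS hmin
    obtain ⟨V, y₂, S₂, z₂, hV, hS₂, hy₂, hc₂, hx₂, rfl⟩ := h'.first hφ hr hK _ hmS hmin
    have hcu := Cell.composable_iff.1 hc
    have hcv := Cell.composable_iff.1 hc₂
    have hlev : ∀ l e, (Cell.comp r U y).x l e = (Cell.comp r V y₂).x l e := fun l e =>
      congrArg (fun p : K.Cell => p.x l e) (hx.symm.trans hx₂)
    simp only [Cell.comp_x hc, Cell.comp_x hc₂, Cell.compX] at hlev
    have hUV : U = V := by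
      refine Cell.ext fun l e => ?_
      rcases lt_trichotomy l r with hl | hl | hl
      · simpa [hl] using hlev l e
      · subst hl
        have h0 : U.x l false = V.x l false := by simpa using hlev l false
        cases e
        · exact h0
        · rw [hU.sub_eq hK, hV.sub_eq hK, h0]
      · rw [hU.eq l e hl, hV.eq l e hl]
    subst hUV
    have hyy : y = y₂ := by
      refine Cell.ext fun l e => ?_
      rcases lt_trichotomy l r with hl | hl | hl
      · exact (hcu.2 l e hl).symm.trans (hcv.2 l e hl)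
      · subst hl
        cases e
        · exact hcu.1.symm.trans hcv.1
        · simpa using hlev l true
      · have := hlev l e
        rw [if_neg (by omega), if_neg (by omega), if_neg (by omega), if_neg (by omega)] at this
        exact add_left_cancel this
    subst hyy
    obtain rfl : S₁ = S₂ := add_left_cancel (hS₁.symm.trans hS₂)
    refine congrArg _ (ih hy hy₂ ?_)
    rw [hS₁, Finsupp.sum_add_index' (fun _ => rfl) (fun _ _ _ => rfl),
      Finsupp.sum_single_index rfl] at hn
    omega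

end

/-! ### The values of items -/

section Values

variable (F) (v : {b // K.deg b = k + 1} → X.carrier)

open Classical in
/-- The values of items, level by level. -/
def Phi : ℕ → K.B → K.Cell → X.carrier
  | 0, b, U => if h : K.deg b = k + 1 then v ⟨b, h⟩ else F0 F U
  | r + 1, b, U => if K.deg b ≤ k then F0 F U else
      haveI : Nonempty X.carrier := ⟨F0 F U⟩
      Classical.epsilon fun z => Ev F (Phi r) r
        (Finsupp.single b 1 + (U.x (r + 1) false - K.atomX b (r + 1) false)) U z

variable [LinearOrder K.B] (hK : K.Ordered)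
  (hv : ∀ b, X.s (k + 1) (v b) = v b ∧ ∀ (p : K.Cell) (q : (K.nu.skel k).carrier),
    K.IsAtom b.1 p → (q.1 = Cell.face false k p → X.s k (v b) = F.toFun q) ∧
      (q.1 = Cell.face true k p → X.t k (v b) = F.toFun q))
include hK

theorem item_sum {b : K.B} {U : K.Cell} {r : ℕ} (hU : IsItem (k + 1) (r + 1) b U)
    (S : K.B →₀ ℕ) (hS : S = Finsupp.single b 1 + (U.x (r + 1) false - K.atomX b (r + 1) false)) :
    (∀ c, S c ≠ 0 → r < K.deg c ∧ K.deg c ≤ k + 1) ∧ Above r S U := by
  classical
  subst hS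
  have hA : ∀ c, (U.x (r + 1) false - K.atomX b (r + 1) false : K.B →₀ ℕ) c ≠ 0 →
      K.deg c = r + 1 := fun c hc => U.deg_eq _ false c (by
    simp only [Finsupp.tsub_apply] at hc; omega)
  refine ⟨fun c hc => ?_, fun l e hl => ?_⟩
  · by_cases hcb : c = b
    · subst hcb; exact ⟨by have := hU.lt; omega, hU.le⟩
    · rw [Finsupp.add_apply, Finsupp.single_eq_of_ne hcb, zero_add] at hc
      have := hA c hc
      have := hU.lt; have := hU.le
      omega
  · rw [atomSum, extN_add, extN_single, one_smul]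
    have hflat := atomSum_flat hA hl e
    rw [atomSum] at hflat
    rw [hflat]
    split_ifs with h
    · subst h
      cases e
      · ext c
        have := hU.level_le hK c false
        simp only [Finsupp.add_apply, Finsupp.tsub_apply]
        omega
      · rw [hU.sub_eq hK, add_comm]
    · rw [add_zero, hU.eq l e (by omega)]

theorem phi_eq {b : K.B} {U : K.Cell} {r : ℕ} (hr : r ≤ k) (hok : Ok F (Phi F v r) r)
    (hU : IsItem (k + 1) (r + 1) b U) (h : Ev F (Phi F v r) r
      (Finsupp.single b 1 + (U.x (r + 1) false - K.atomX b (r + 1) false)) U z) :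
    Phi F v (r + 1) b U = z := by
  classical
  rw [Phi]
  split_ifs with hb
  · refine (h.low hok hr fun c hc => ?_).symm
    by_cases hcb : c = b
    · subst hcb; exact hb
    · rw [Finsupp.add_apply, Finsupp.single_eq_of_ne hcb, zero_add, Finsupp.tsub_apply] at hc
      have := U.deg_eq (r + 1) false c (by omega)
      have := hU.lt
      omega
  · have : Nonempty X.carrier := ⟨F0 F U⟩
    exact (Classical.epsilon_spec (p := fun z => Ev F (Phi F v r) r _ U z) ⟨z, h⟩).unique hok hr hK h

theorem phi_spec {b : K.B} {U : K.Cell} {r : ℕ} (hr : r ≤ k) (hok : Ok F (Phi F v r) r)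
    (hU : IsItem (k + 1) (r + 1) b U) :
    Ev F (Phi F v r) r (Finsupp.single b 1 + (U.x (r + 1) false - K.atomX b (r + 1) false)) U
      (Phi F v (r + 1) b U) := by
  obtain ⟨h1, h2⟩ := item_sum hK hU _ rfl
  obtain ⟨z, hz⟩ := exists_ev (φ := Phi F v r) (F := F) hK h1 h2
  rw [phi_eq F v hK hr hok hU hz]
  exact hz

theorem item_zero_eq_atom {b : K.B} {U : K.Cell} {top : ℕ} (hU : IsItem top 0 b U) :
    U = atom hK.good b := by
  refine Cell.ext fun l e => ?_
  rcases Nat.eq_zero_or_pos l with rfl | hl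
  · exact eq_of_le_of_sum (fun c => hU.level_le hK c e) (hK.good.unital b e) (U.aug e)
  · exact hU.eq l e hl

include hv

theorem v_ends (b : {b // K.deg b = k + 1}) {i : ℕ} (hi : i ≤ k) :
    X.s i (v b) = F0 F (K.nu.s i (atom hK.good b.1)) ∧
      X.t i (v b) = F0 F (K.nu.t i (atom hK.good b.1)) := by
  obtain ⟨-, hv2⟩ := hv b
  set p := atom hK.good b.1
  obtain ⟨h1, -⟩ := hv2 p ⟨K.nu.s k p, K.nu.fixed_s le_rfl p⟩ (isAtom_atom hK.good _)
  obtain ⟨-, h2⟩ := hv2 p ⟨K.nu.t k p, K.nu.fixed_t le_rfl p⟩ (isAtom_atom hK.good _)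
  have h1' := (h1 rfl).trans (F0_eq F (K.nu.fixed_s le_rfl p) _ rfl)
  have h2' := (h2 rfl).trans (F0_eq F (K.nu.fixed_t le_rfl p) _ rfl)
  constructor
  · have h := congrArg (X.s i) h1'
    rwa [X.ss, min_eq_left hi, F0_s, K.nu.ss, min_eq_left hi] at h
  · have h := congrArg (X.t i) h2'
    rwa [X.tt, min_eq_left hi, F0_t F (Or.inr (K.nu.fixed_t le_rfl p)), K.nu.tt,
      min_eq_left hi] at h

theorem ok : ∀ r ≤ k, Ok F (Phi F v r) r := by
  classical
  intro r
  induction r with
  | zero =>
    intro _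
    have hphi : ∀ b U, Phi F v 0 b U =
        if h : K.deg b = k + 1 then v ⟨b, h⟩ else F0 F U := fun b U => by rw [Phi]
    have hfix : ∀ b U, IsItem (k + 1) 0 b U → ¬K.deg b = k + 1 → K.nu.s k U = U :=
      fun b U hU hb => hU.fixed (Nat.zero_le k) (by have := hU.le; omega)
    exact {
      low := fun b U hU hb => by rw [hphi, dif_neg (by omega)]
      ends_s := fun b U hU i hi => by
        rw [hphi]
        split_ifs with hb
        · rw [item_zero_eq_atom hK hU]; exact (v_ends F v hK hv ⟨b, hb⟩ hi).1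
        · exact F0_s F i U
      ends_t := fun b U hU i hi => by
        rw [hphi]
        split_ifs with hb
        · rw [item_zero_eq_atom hK hU]; exact (v_ends F v hK hv ⟨b, hb⟩ hi).2
        · exact F0_t F (Or.inr (hfix b U hU hb))
      dim := fun b U hU => by
        rw [hphi]
        split_ifs with hb
        · exact (hv ⟨b, hb⟩).1
        · exact F0_dim F U (Nat.le_succ k)
      whR := fun b U u p _ _ hp => absurd hp (Nat.not_lt_zero p)
      whL := fun b U u p _ _ hp => absurd hp (Nat.not_lt_zero p) }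
  | succ r ih =>
    intro hr
    have hok := ih (by omega)
    have hr' : r ≤ k := by omega
    have hT : ∀ u : K.Cell, K.nu.s (r + 1) u = u →
        Ev F (Phi F v r) r (u.x (r + 1) false) u (F0 F u) := by
      intro u hu
      have hd : ∀ c, u.x (r + 1) false c ≠ 0 → K.deg c = r + 1 := fun c hc => u.deg_eq _ _ c hc
      obtain ⟨z, hz⟩ := exists_ev (φ := Phi F v r) (F := F) (r := r) (S := u.x (r + 1) false) hK (x := u)
        (fun c hc => ⟨by rw [hd c hc]; omega, by rw [hd c hc]; omega⟩) fun l e hl => by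
          rw [atomSum_flat hd hl e]
          split_ifs with h
          · subst h; exact Cell.x_false_of_fixed hu e
          · exact Cell.x_of_fixed hu (by omega) e
      rw [hz.low hok hr' fun c hc => by rw [hd c hc]; omega] at hz
      exact hz
    exact {
      low := fun b U hU hb => by rw [Phi, if_pos hb]
      ends_s := fun b U hU i hi => ((phi_spec F v hK hr' hok hU).ends hok hr').1 i hi
      ends_t := fun b U hU i hi => ((phi_spec F v hK hr' hok hU).ends hok hr').2.1 i hi
      dim := fun b U hU => ((phi_spec F v hK hr' hok hU).ends hok hr').2.2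
      whR := fun b U u p hU hu hp e => by
        have hE := phi_spec F v hK hr' hok hU
        have hN : Ev F (Phi F v r) r
            (Finsupp.single b 1 + (U.x (r + 1) false - K.atomX b (r + 1) false) +
              u.x (r + 1) false) (K.nu.comp p U u) (X.comp p (Phi F v (r + 1) b U) (F0 F u)) := by
          rcases Nat.lt_or_eq_of_le (Nat.le_of_lt_succ hp) with h | rfl
          · exact hE.hom hok hr' (hT u hu) h e
          · exact hE.append hok hr' (hT u hu) e
        refine phi_eq F v hK hr' hok (item_wh_right hU hu hp e) (Eq.subst (motive := fun S =>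
          Ev F (Phi F v r) r S _ _) ?_ hN)
        show _ = Finsupp.single b 1 + ((Cell.comp p U u).x (r + 1) false - _)
        rw [Cell.comp_x e, Cell.compX, if_neg (by omega), if_neg (by omega), add_assoc]
        ext c
        have := hU.level_le hK c false
        simp only [Finsupp.add_apply, Finsupp.tsub_apply]
        omega
      whL := fun b U u p hU hu hp e => by
        have hE := phi_spec F v hK hr' hok hU
        have hN : Ev F (Phi F v r) r (u.x (r + 1) false +
            (Finsupp.single b 1 + (U.x (r + 1) false - K.atomX b (r + 1) false)))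
            (K.nu.comp p u U) (X.comp p (F0 F u) (Phi F v (r + 1) b U)) := by
          rcases Nat.lt_or_eq_of_le (Nat.le_of_lt_succ hp) with h | rfl
          · exact (hT u hu).hom hok hr' hE h e
          · exact (hT u hu).append hok hr' hE e
        refine phi_eq F v hK hr' hok (item_wh_left hU hu hp e) (Eq.subst (motive := fun S =>
          Ev F (Phi F v r) r S _ _) ?_ hN)
        show _ = Finsupp.single b 1 + ((Cell.comp p u U).x (r + 1) false - _)
        rw [Cell.comp_x e, Cell.compX, if_neg (by omega), if_neg (by omega)]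
        ext c
        have := hU.level_le hK c false
        simp only [Finsupp.add_apply, Finsupp.tsub_apply]
        omega }

theorem atom_ev (b : {b // K.deg b = k + 1}) :
    ∀ r ≤ k, Ev F (Phi F v r) r (Finsupp.single b.1 1) (atom hK.good b.1) (v b) := by
  intro r hr
  have hitem : ∀ r ≤ k, IsItem (k + 1) r b.1 (atom hK.good b.1) := fun r hr =>
    ⟨by have := b.2; omega, b.2.le, fun _ _ _ => rfl⟩
  have hval : ∀ r ≤ k, Phi F v r b.1 (atom hK.good b.1) = v b := by
    intro r
    induction r with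
    | zero => intro _; rw [Phi, dif_pos b.2]
    | succ r ih =>
      intro hr
      have hok := ok F v hK hv r (by omega)
      refine phi_eq F v hK (by omega) hok (hitem _ hr) ?_
      have h := Ev.cons (φ := Phi F v r) b.1 _ _ 0 _ (hitem r (by omega))
        (Ev.nil (F := F) (K.nu.t r (atom hK.good b.1)) (K.nu.fixed_t le_rfl _))
        (by rw [K.nu.st, if_neg (lt_irrefl r)])
      rw [K.nu.comp_id, ← hok.ends_t b.1 _ (hitem r (by omega)) r (by omega), ih (by omega),
        X.comp_id, add_zero] at h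
      refine Eq.subst (motive := fun S => Ev F (Phi F v r) r S _ _) ?_ h
      show _ = Finsupp.single b.1 1 + (K.atomX b.1 (r + 1) false - K.atomX b.1 (r + 1) false)
      rw [tsub_self, add_zero]
  have hok := ok F v hK hv r hr
  have h := Ev.cons (φ := Phi F v r) b.1 _ _ 0 _ (hitem r hr)
    (Ev.nil (F := F) (K.nu.t r (atom hK.good b.1)) (K.nu.fixed_t le_rfl _))
    (by rw [K.nu.st, if_neg (lt_irrefl r)])
  rwa [K.nu.comp_id, ← hok.ends_t b.1 _ (hitem r hr) r hr, hval r hr, X.comp_id, add_zero] at h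

end Values

end ADC

open ADC in
/-- Functors extend uniquely from one skeleton to the next by values on the atoms. -/
theorem freeSucc : Spec.FreeSucc.{u} := by
  classical
  intro K hK' X k F v hv
  obtain ⟨_, hK⟩ := hK'.exists_ordered
  have hok := ok F v hK hv k le_rfl
  set φ := Phi F v k with hφ
  have hex : ∀ p : (K.nu.skel (k + 1)).carrier,
      ∃ z, Ev F φ k (p.1.x (k + 1) false) p.1 z := fun p => by
    have hd : ∀ c, p.1.x (k + 1) false c ≠ 0 → K.deg c = k + 1 := fun c hc => p.1.deg_eq _ _ c hc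
    refine exists_ev hK (fun c hc => ⟨by rw [hd c hc]; omega, (hd c hc).le⟩) fun l e hl => ?_
    rw [atomSum_flat hd hl e]
    split_ifs with h
    · subst h; exact Cell.x_false_of_fixed p.2 e
    · exact Cell.x_of_fixed p.2 (by omega) e
  choose G hG using hex
  have hGeq : ∀ p S z, Ev F φ k S p.1 z → G p = z := by
    intro p S z h
    have hS : p.1.x (k + 1) false = S := by
      rw [h.above _ _ (Nat.lt_succ_self k), atomSum_flat (fun c hc => by
        have := h.tops c hc; omega) (Nat.lt_succ_self k), if_pos rfl]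
    exact (hS ▸ hG p).unique hok le_rfl hK h
  refine ⟨{ toFun := G, map_s := ?_, map_t := ?_, map_comp := ?_ }, ⟨?_, ?_⟩, ?_⟩
  · intro i p
    by_cases hi : i ≤ k
    · rw [((hG p).ends hok le_rfl).1 i hi]
      exact hGeq _ 0 _ (Ev.nil _ (K.nu.fixed_s hi p.1))
    · rw [X.s_eq_self_of_le ((hG p).ends hok le_rfl).2.2 (by omega)]
      exact congrArg G (Subtype.ext (K.nu.s_eq_self_of_le p.2 (by omega)))
  · intro i p
    by_cases hi : i ≤ k
    · rw [((hG p).ends hok le_rfl).2.1 i hi]
      exact hGeq _ 0 _ (Ev.nil _ (K.nu.fixed_t hi p.1))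
    · rw [X.t_eq_self_of_le ((hG p).ends hok le_rfl).2.2 (by omega)]
      exact congrArg G (Subtype.ext (K.nu.t_eq_self_of_le p.2 (by omega)))
  · intro n p q e
    have e' : K.nu.t n p.1 = K.nu.s n q.1 := congrArg Subtype.val e
    have hv : ((K.nu.skel (k + 1)).comp n p q).1 = K.nu.comp n p.1 q.1 :=
      congrArg Subtype.val (dif_pos e')
    rcases lt_trichotomy n k with hn | hn | hn
    · exact hGeq _ _ _ (by rw [hv]; exact (hG p).hom hok le_rfl (hG q) hn e')
    · subst hn
      exact hGeq _ _ _ (by rw [hv]; exact (hG p).append hok le_rfl (hG q) e')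
    · have h1 : p = q := Subtype.ext ((K.nu.t_eq_self_of_le p.2 (by omega)).symm.trans
        (e'.trans (K.nu.s_eq_self_of_le q.2 (by omega))))
      subst h1
      rw [X.comp_self (X.s_eq_self_of_le ((hG p).ends hok le_rfl).2.2 (by omega))]
      refine congrArg G (Subtype.ext (hv.trans ?_))
      exact K.nu.comp_self (K.nu.s_eq_self_of_le p.2 (by omega))
  · intro q q' e
    have hq : K.nu.s k q'.1 = q'.1 := by rw [e]; exact q.2
    exact (hGeq q' 0 _ (Ev.nil _ hq)).trans (F0_eq F hq q e.symm).symm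
  · intro b q hq
    have e : q.1 = atom hK.good b.1 := Cell.ext fun l e => hq l e
    exact hGeq q _ _ (by rw [e]; exact atom_ev F v hK hv b k le_rfl)
  rintro H ⟨hext, hat⟩
  have hlow : ∀ p : (K.nu.skel (k + 1)).carrier, K.nu.s k p.1 = p.1 → H.toFun p = F0 F p.1 :=
    fun p hp => (hext ⟨p.1, hp⟩ p rfl).trans (F0_eq F hp _ rfl)
  have hev : ∀ r ≤ k, (∀ b (p : (K.nu.skel (k + 1)).carrier), IsItem (k + 1) r b p.1 →
      H.toFun p = Phi F v r b p.1) → ∀ S x z, Ev F (Phi F v r) r S x z →
      ∀ p : (K.nu.skel (k + 1)).carrier, p.1 = x → H.toFun p = z := by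
    intro r hr hitem S x z h
    induction h with
    | nil x hx =>
      intro p hp
      rw [hlow p (by rw [hp]; exact K.nu.s_eq_self_of_le hx hr), hp]
    | cons b U y S z hU hy hc ih =>
      intro p hp
      have hUf : K.nu.s (k + 1) U = U := hU.fixed (by omega) hU.le
      have hyf : K.nu.s (k + 1) y = y := hy.fixed (by omega) fun c hc => (hy.tops c hc).2
      have hpe : p = (K.nu.skel (k + 1)).comp r ⟨U, hUf⟩ ⟨y, hyf⟩ :=
        Subtype.ext (hp.trans (by
          change _ = Subtype.val (dite _ _ _)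
          rw [dif_pos hc]))
      rw [hpe, H.map_comp r _ _ (Subtype.ext hc), ih ⟨y, hyf⟩ rfl, hitem b ⟨U, hUf⟩ hU]
  have hit : ∀ r ≤ k, ∀ b (p : (K.nu.skel (k + 1)).carrier), IsItem (k + 1) r b p.1 →
      H.toFun p = Phi F v r b p.1 := by
    intro r
    induction r with
    | zero =>
      intro _ b p hp
      rw [Phi]
      split_ifs with hb
      · exact hat ⟨b, hb⟩ p fun l e => by rw [item_zero_eq_atom hK hp]; rfl
      · exact hlow p (hp.fixed (Nat.zero_le k) (by have := hp.le; omega))
    | succ r ih =>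
      intro hr b p hp
      exact hev r (by omega) (ih (by omega)) _ _ _
        (phi_spec F v hK (by omega) (ok F v hK hv r (by omega)) hp) p rfl
  exact Fun.ext fun p => hev k le_rfl (hit k le_rfl) _ _ _ (hG p) p rfl

open ADC in
/-- Functors on the zero skeleton are arbitrary assignments of objects. -/
theorem freeZero : Spec.FreeZero.{u} := by
  intro K _ X v hv
  have hex : ∀ q : (K.nu.skel 0).carrier, ∃ b : {b // K.deg b = 0},
      q.1.x 0 false = Finsupp.single b.1 1 := fun q => by
    obtain ⟨b, hb⟩ := exists_single_of_sum (q.1.aug false)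
    exact ⟨⟨b, q.1.deg_eq 0 false b (by simp [hb])⟩, hb⟩
  choose vtx hvtx using hex
  have hsame : ∀ {p q : (K.nu.skel 0).carrier}, p.1 = q.1 → v (vtx p) = v (vtx q) :=
    fun h => by rw [Subtype.ext h]
  have hdim : ∀ i b, X.s i (v b) = v b := fun i b => X.s_eq_self_of_le (hv b) (Nat.zero_le i)
  have hatom : ∀ q : (K.nu.skel 0).carrier, K.IsAtom (vtx q).1 q.1 := by
    intro q l e
    rcases Nat.eq_zero_or_pos l with rfl | hl
    · rw [Cell.x_false_of_fixed q.2 e, hvtx q]
      have := atomX_deg_self (K := K) (vtx q).1 e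
      rw [(vtx q).2] at this
      exact this.symm
    · rw [Cell.x_of_fixed q.2 hl, atomX_gt (by rw [(vtx q).2]; exact hl)]
  refine ⟨{ toFun := fun q => v (vtx q), map_s := ?_, map_t := ?_, map_comp := ?_ }, ?_, ?_⟩
  · intro i q
    rw [hdim]
    exact hsame (K.nu.s_eq_self_of_le q.2 (Nat.zero_le i))
  · intro i q
    rw [X.t_eq_self_of_le (hv _) (Nat.zero_le i)]
    exact hsame (K.nu.t_eq_self_of_le q.2 (Nat.zero_le i))
  · intro i p q e
    have e' : K.nu.t i p.1 = K.nu.s i q.1 := congrArg Subtype.val e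
    have h1 : p = q := Subtype.ext ((K.nu.t_eq_self_of_le p.2 (Nat.zero_le i)).symm.trans
      (e'.trans (K.nu.s_eq_self_of_le q.2 (Nat.zero_le i))))
    subst h1
    rw [X.comp_self (hdim i _)]
    refine hsame ?_
    refine Eq.trans ?_ (K.nu.comp_self (K.nu.s_eq_self_of_le p.2 (Nat.zero_le i)))
    exact congrArg Subtype.val (dif_pos e')
  · intro b q hq
    refine congrArg v (Subtype.ext ?_)
    have h1 := hq 0 false
    have h2 := atomX_deg_self (K := K) b.1 false
    rw [b.2] at h2
    rw [hvtx q, h2] at h1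
    exact Finsupp.single_left_injective one_ne_zero h1
  · intro H hH
    exact Fun.ext fun q => hH (vtx q) q (hatom q)

open ADC in
/-- Functors agreeing on all atoms are equal. -/
theorem freeExt : Spec.FreeExt.{u} := by
  intro K hK X F G h
  have key : ∀ k, (K.nu.subι _ (K.nu.skel_closed k)).comp F =
      (K.nu.subι _ (K.nu.skel_closed k)).comp G := by
    intro k
    induction k with
    | zero =>
      have hv : ∀ b : {b // K.deg b = 0}, X.s 0 (F.toFun (atom hK b.1)) = F.toFun (atom hK b.1) :=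
        fun b => by
          rw [← F.map_s]
          exact congrArg F.toFun (Cell.fixed_of_zero fun l e hl => atomX_gt (by rw [b.2]; exact hl) e)
      obtain ⟨H, -, hu⟩ := freeZero K hK X (fun b => F.toFun (atom hK b.1)) hv
      have e1 : ∀ b (q : (K.nu.skel 0).carrier), K.IsAtom b q.1 → q.1 = atom hK b :=
        fun b q hq => Cell.ext fun l e => hq l e
      exact (hu ((K.nu.subι _ (K.nu.skel_closed 0)).comp F) fun b q hq =>
          congrArg F.toFun (e1 _ q hq)).trans
        (hu ((K.nu.subι _ (K.nu.skel_closed 0)).comp G) fun b q hq =>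
          (congrArg G.toFun (e1 _ q hq)).trans (h b.1 _ (isAtom_atom hK _)).symm).symm
    | succ k ih =>
      have hfix : ∀ b : {b // K.deg b = k + 1}, K.nu.s (k + 1) (atom hK b.1) = atom hK b.1 :=
        fun b => Cell.fixed_of_zero fun l e hl => atomX_gt (by rw [b.2]; exact hl) e
      obtain ⟨H, -, hu⟩ := freeSucc K hK X k ((K.nu.subι _ (K.nu.skel_closed k)).comp F)
        (fun b => F.toFun (atom hK b.1)) fun b => ⟨by rw [← F.map_s, hfix b], fun p q hp => by
          have e : p = atom hK b.1 := Cell.ext fun l e => hp l e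
          subst e
          exact ⟨fun he => by rw [← F.map_s]; exact congrArg F.toFun he.symm,
            fun he => by rw [← F.map_t]; exact congrArg F.toFun he.symm⟩⟩
      exact (hu ((K.nu.subι _ (K.nu.skel_closed (k + 1))).comp F)
          ⟨fun q q' e => congrArg F.toFun e, fun b q hq =>
            congrArg F.toFun (Cell.ext fun l e => hq l e)⟩).trans
        (hu ((K.nu.subι _ (K.nu.skel_closed (k + 1))).comp G) ⟨fun q q' e =>
          (congrArg G.toFun e).trans (congrArg (fun T : Fun _ X => T.toFun q) ih).symm,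
          fun b q hq => (congrArg G.toFun (show q.1 = atom hK b.1 from
            Cell.ext fun l e => hq l e)).trans (h b.1 _ (isAtom_atom hK _)).symm⟩).symm
  refine Fun.ext fun p => ?_
  obtain ⟨N, hN⟩ := K.nu.bounded p
  exact congrArg (fun T : Fun (K.nu.skel N) X => T.toFun ⟨p, hN⟩) (key N)

end

end Vale.Agent.P213
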