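import Vale.Agent.P213.Steiner.Atom
import Vale.Agent.P213.Omega.Interval

/-!
# P213: the simplex satisfies the order condition

The atoms are computed by splitting off the least vertex; the order is the alternating
lexicographic order.
-/

namespace Vale.Agent.P213.Steiner.Simplex

open ADC

noncomputable section

/-- Faces of the simplex. -/
abbrev Bs (m : ℕ) : Type := (simplexADC m).B

variable {m : ℕ}

/-- A vertex. -/
def pt (v : Fin (m + 1)) : Bs m := ⟨{v}, Finset.singleton_nonempty v⟩

/-- A face with a vertex added. -/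
def cone (v : Fin (m + 1)) (c : Bs m) : Bs m := ⟨insert v c.1, Finset.insert_nonempty _ _⟩

/-- All vertices lie above `v`. -/
def Above (v : Fin (m + 1)) (c : Bs m) : Prop := ∀ y ∈ c.1, v < y

/-- The cone on positive chains. -/
def coneN (v : Fin (m + 1)) : (Bs m →₀ ℕ) →+ (Bs m →₀ ℕ) :=
  Finsupp.mapDomain.addMonoidHom (cone v)

/-- The cone on integral chains. -/
def coneZ (v : Fin (m + 1)) : (Bs m →₀ ℤ) →+ (Bs m →₀ ℤ) :=
  Finsupp.mapDomain.addMonoidHom (cone v)

/-- The augmentation. -/
def eps : (Bs m →₀ ℤ) →+ ℤ :=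
  Finsupp.liftAddHom fun c => if c.1.card = 1 then AddMonoidHom.id ℤ else 0

theorem eps_single (c : Bs m) (r : ℤ) :
    eps (Finsupp.single c r) = if c.1.card = 1 then r else 0 := by
  rw [eps, Finsupp.liftAddHom_apply_single]
  split_ifs <;> rfl

theorem eps_zero_of {z : Bs m →₀ ℤ} (h : ∀ c, z c ≠ 0 → c.1.card ≠ 1) : eps z = 0 := by
  rw [eps, Finsupp.liftAddHom_apply]
  refine Finset.sum_eq_zero fun c hc => ?_
  simp [if_neg (h c (Finsupp.mem_support_iff.1 hc))]

theorem eps_toZ {x : Bs m →₀ ℕ} (h : ∀ c, x c ≠ 0 → c.1.card = 1) :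
    eps ((simplexADC m).toZ x) = (x.sum fun _ r => r : ℕ) := by
  induction x using Finsupp.induction with
  | zero => simp [toZ_zero]
  | single_add c r x hc hr ih =>
    have h0 : x c = 0 := Finsupp.notMem_support_iff.1 hc
    have hx : ∀ d, x d ≠ 0 → d.1.card = 1 := fun d hd => h d (by
      have : d ≠ c := fun e => hd (e ▸ h0)
      simpa [Finsupp.single_apply, Ne.symm this] using hd)
    rw [toZ_add, map_add, ih hx, toZ_single, eps_single, if_pos (h c (by simp [h0, hr])),
      Finsupp.sum_add_index' (fun _ => rfl) (fun _ _ _ => rfl), Finsupp.sum_single_index rfl]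
    push_cast
    rfl

theorem coneN_single (v : Fin (m + 1)) (c : Bs m) (r : ℕ) :
    coneN v (Finsupp.single c r) = Finsupp.single (cone v c) r := Finsupp.mapDomain_single

theorem coneZ_single (v : Fin (m + 1)) (c : Bs m) (r : ℤ) :
    coneZ v (Finsupp.single c r) = Finsupp.single (cone v c) r := Finsupp.mapDomain_single

theorem toZ_coneN (v : Fin (m + 1)) (x : Bs m →₀ ℕ) :
    (simplexADC m).toZ (coneN v x) = coneZ v ((simplexADC m).toZ x) := by
  induction x using Finsupp.induction_linear with
  | zero => simp [toZ_zero]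
  | add x y hx hy => rw [map_add, toZ_add, toZ_add, map_add, hx, hy]
  | single c r => rw [coneN_single, toZ_single, toZ_single, coneZ_single]

theorem cone_injOn (v : Fin (m + 1)) : Set.InjOn (cone v) {c | Above v c} := by
  intro c hc d hd h
  have hv : ∀ {e : Bs m}, Above v e → v ∉ e.1 := fun he h => lt_irrefl v (he v h)
  refine Subtype.ext ?_
  rw [← Finset.erase_insert (hv hc), ← Finset.erase_insert (hv hd)]
  exact congrArg (fun s => Finset.erase s v) (congrArg Subtype.val h)

theorem coneN_apply_cone {v : Fin (m + 1)} {x : Bs m →₀ ℕ} (hx : ∀ c, x c ≠ 0 → Above v c)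
    {c : Bs m} (hc : Above v c) : coneN v x (cone v c) = x c :=
  Finsupp.mapDomain_apply' {c | Above v c} x (fun d hd => hx d (Finsupp.mem_support_iff.1 hd))
    (cone_injOn v) hc

theorem exists_of_coneN {v : Fin (m + 1)} {x : Bs m →₀ ℕ} {t : Bs m} (h : coneN v x t ≠ 0) :
    ∃ c, x c ≠ 0 ∧ cone v c = t := by
  classical
  have := Finsupp.mapDomain_support (Finsupp.mem_support_iff.2 h)
  obtain ⟨c, hc, e⟩ := Finset.mem_image.1 this
  exact ⟨c, Finsupp.mem_support_iff.1 hc, e⟩

theorem exists_of_bdZ {z : Bs m →₀ ℤ} {t : Bs m} (h : (simplexADC m).bdZ z t ≠ 0) :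
    ∃ s, z s ≠ 0 ∧ (simplexADC m).d s t ≠ 0 := by
  by_contra hc
  push Not at hc
  refine h ?_
  rw [bdZ, Finsupp.liftAddHom_apply, Finsupp.sum, Finsupp.finsetSum_apply]
  refine Finset.sum_eq_zero fun s hs => ?_
  rw [AddMonoidHom.flip_apply, smulAddHom_apply, Finsupp.smul_apply,
    hc s (Finsupp.mem_support_iff.1 hs), smul_zero]

theorem subset_of_d {s t : Bs m} (h : (simplexADC m).d s t ≠ 0) : t.1 ⊆ s.1 := by
  obtain ⟨x, -, hs, -⟩ := Interval.of_d_ne_zero h
  rw [hs]
  exact Finset.subset_insert _ _

theorem deg_d (s t : Bs m) (h : (simplexADC m).d s t ≠ 0) :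
    (simplexADC m).deg t + 1 = (simplexADC m).deg s := by
  obtain ⟨x, hx, hs, -⟩ := Interval.of_d_ne_zero h
  show t.1.card - 1 + 1 = s.1.card - 1
  rw [hs, Finset.card_insert_of_notMem hx]
  have := t.2.card_pos
  omega

theorem d_point (c : Bs m) (h : c.1.card = 1) : (simplexADC m).d c = 0 := by
  refine Finset.sum_eq_zero fun x hx => dif_neg ?_
  rw [← Finset.card_pos, Finset.card_erase_of_mem hx, h]
  omega

theorem card_cone {v : Fin (m + 1)} {c : Bs m} (h : Above v c) :
    (cone v c).1.card = c.1.card + 1 :=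
  Finset.card_insert_of_notMem fun hv => lt_irrefl v (h v hv)

theorem exists_cone (c : Bs m) (h : 2 ≤ c.1.card) :
    ∃ v c', Above v c' ∧ c = cone v c' ∧ c'.1.card + 1 = c.1.card := by
  have hm := Finset.min'_mem c.1 c.2
  have hne : (c.1.erase (c.1.min' c.2)).Nonempty := by
    rw [← Finset.card_pos, Finset.card_erase_of_mem hm]
    omega
  refine ⟨c.1.min' c.2, ⟨_, hne⟩, fun y hy => ?_, Subtype.ext (Finset.insert_erase hm).symm, ?_⟩
  · exact lt_of_le_of_ne (Finset.min'_le _ _ (Finset.mem_of_mem_erase hy))
      (Finset.ne_of_mem_erase hy).symm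
  · show (c.1.erase _).card + 1 = _
    rw [Finset.card_erase_of_mem hm]
    omega

theorem d_cone {v : Fin (m + 1)} {c : Bs m} (h : Above v c) :
    (simplexADC m).d (cone v c) = Finsupp.single c 1 - coneZ v ((simplexADC m).d c) -
      eps (Finsupp.single c 1) • Finsupp.single (pt v) (1 : ℤ) := by
  obtain ⟨c, hc⟩ := c
  have hv : v ∉ c := fun hv => lt_irrefl v (h v hv)
  have hterm : ∀ x ∈ c, (insert v c).erase x = insert v (c.erase x) := fun x hx =>
    Finset.erase_insert_of_ne fun (e : v = x) => hv (e ▸ hx)
  have hsign : ∀ x ∈ c, ((insert v c).filter (· < x)).card = (c.filter (· < x)).card + 1 :=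
    fun x hx => by
      rw [Finset.filter_insert, if_pos (h x hx),
        Finset.card_insert_of_notMem fun hm => hv (Finset.mem_filter.1 hm).1]
  have h0 : (simplexADC m).d (cone v ⟨c, hc⟩) = Finsupp.single (⟨c, hc⟩ : Bs m) 1 +
      ∑ x ∈ c, Finsupp.single (⟨insert v (c.erase x), Finset.insert_nonempty _ _⟩ : Bs m)
        (-((-1 : ℤ) ^ (c.filter (· < x)).card)) := by
    show (∑ x ∈ insert v c, if h : ((insert v c).erase x).Nonempty then
      Finsupp.single (⟨_, h⟩ : Bs m) ((-1 : ℤ) ^ ((insert v c).filter (· < x)).card) else 0) = _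
    rw [Finset.sum_insert hv]
    refine congrArg₂ (· + ·) ?_ (Finset.sum_congr rfl fun x hx => ?_)
    · have e : ((insert v c).filter (· < v)).card = 0 := by
        rw [Finset.card_eq_zero, Finset.filter_eq_empty_iff]
        intro y hy hlt
        rcases Finset.mem_insert.1 hy with rfl | hy
        · exact lt_irrefl _ hlt
        · exact lt_asymm hlt (h y hy)
      rw [dif_pos (by rw [Finset.erase_insert hv]; exact hc), e, pow_zero]
      exact congrArg (fun t => Finsupp.single t 1) (Subtype.ext (Finset.erase_insert hv))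
    · rw [dif_pos (by rw [hterm x hx]; exact Finset.insert_nonempty _ _)]
      refine congrArg₂ Finsupp.single (Subtype.ext (hterm x hx)) ?_
      rw [hsign x hx, pow_succ]
      ring
  rw [h0, sub_sub, sub_eq_add_neg]
  refine congrArg _ ?_
  by_cases h1 : c.card = 1
  · obtain ⟨y, rfl⟩ := Finset.card_eq_one.1 h1
    rw [d_point _ h1, map_zero, zero_add, eps_single, if_pos h1, one_smul, Finset.sum_singleton]
    have e : (Finset.filter (fun z => z < y) {y}).card = 0 := by simp [Finset.filter_singleton]
    rw [e, pow_zero, ← Finsupp.single_neg]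
    refine congrArg (fun t => Finsupp.single t (-1 : ℤ)) (Subtype.ext ?_)
    simp [pt]
  · rw [eps_single, if_neg h1, zero_smul, add_zero]
    show _ = -coneZ v (∑ x ∈ c, if h : (c.erase x).Nonempty then
      Finsupp.single (⟨c.erase x, h⟩ : Bs m) ((-1 : ℤ) ^ (c.filter (· < x)).card) else 0)
    rw [map_sum, ← Finset.sum_neg_distrib]
    refine Finset.sum_congr rfl fun x hx => ?_
    rw [dif_pos (by rw [← Finset.card_pos, Finset.card_erase_of_mem hx]
                    have := Finset.card_pos.2 hc
                    omega), coneZ_single, ← Finsupp.single_neg]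
    rfl

theorem bdZ_coneZ {v : Fin (m + 1)} {z : Bs m →₀ ℤ} (h : ∀ c, z c ≠ 0 → Above v c) :
    (simplexADC m).bdZ (coneZ v z) = z - coneZ v ((simplexADC m).bdZ z) -
      eps z • Finsupp.single (pt v) (1 : ℤ) := by
  induction z using Finsupp.induction with
  | zero => simp
  | single_add c r z hc hr ih =>
    have h0 : z c = 0 := Finsupp.notMem_support_iff.1 hc
    have hz : ∀ d, z d ≠ 0 → Above v d := fun d hd => h d (by
      have : d ≠ c := fun e => hd (e ▸ h0)
      simpa [Finsupp.single_apply, Ne.symm this] using hd)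
    have e : Finsupp.single c r = r • Finsupp.single c (1 : ℤ) := by simp
    simp only [map_add, ih hz]
    rw [e]
    have e1 : ∀ d : Bs m, (simplexADC m).bdZ (Finsupp.single d (1 : ℤ)) = (simplexADC m).d d :=
      fun d => (bdZ_single d 1).trans (one_smul ℤ _)
    simp only [map_zsmul, coneZ_single, add_smul, smul_eq_mul]
    rw [e1, e1, d_cone (h c (by simp [h0, hr]))]
    simp only [smul_sub, smul_smul]
    abel

theorem eps_d (c : Bs m) : eps ((simplexADC m).d c) = 0 := by
  rcases Nat.lt_or_ge c.1.card 2 with h | h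
  · have := c.2.card_pos
    rw [d_point c (by omega), map_zero]
  obtain ⟨v, c', hab, rfl, hcard⟩ := exists_cone c h
  have e : eps (coneZ v ((simplexADC m).d c')) = 0 := eps_zero_of fun t ht => by
    classical
    have := Finsupp.mapDomain_support (Finsupp.mem_support_iff.2 ht)
    obtain ⟨d, hd, rfl⟩ := Finset.mem_image.1 this
    have hd' : Above v d := fun y hy => hab y (subset_of_d (Finsupp.mem_support_iff.1 hd) hy)
    rw [card_cone hd']
    have := d.2.card_pos
    omega
  rw [d_cone hab, map_sub, map_sub, map_zsmul, e, eps_single (pt v)]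
  simp [pt]

theorem dd (c : Bs m) : ((simplexADC m).d c).sum (fun t r => r • (simplexADC m).d t) = 0 := by
  suffices h : ∀ n (c : Bs m), c.1.card ≤ n → (simplexADC m).bdZ ((simplexADC m).d c) = 0 by
    have := h _ c le_rfl
    rwa [bdZ, Finsupp.liftAddHom_apply] at this
  intro n
  induction n with
  | zero => intro c hc; have := c.2.card_pos; omega
  | succ n ih =>
    intro c hc
    rcases Nat.lt_or_ge c.1.card 2 with h | h
    · have := c.2.card_pos
      rw [d_point c (by omega), map_zero]
    obtain ⟨v, c', hab, rfl, hcard⟩ := exists_cone c h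
    have hz : ∀ t, (simplexADC m).d c' t ≠ 0 → Above v t := fun t ht y hy =>
      hab y (subset_of_d ht hy)
    rw [d_cone hab, map_sub, map_sub, map_zsmul, bdZ_coneZ hz, ih c' (by omega), map_zero,
      sub_zero, eps_d, zero_smul, sub_zero, bdZ_single, bdZ_single, d_point (pt v) rfl, one_smul,
      smul_zero, smul_zero, sub_self, sub_zero]

/-! ### Atoms -/

theorem atomX_subset (c : Bs m) :
    ∀ j k e t, (simplexADC m).deg c ≤ k + j → (simplexADC m).atomX c k e t ≠ 0 → t.1 ⊆ c.1 := by
  intro j
  induction j with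
  | zero =>
    intro k e t hk ht
    rcases Nat.lt_or_eq_of_le (show (simplexADC m).deg c ≤ k from hk) with h | rfl
    · simp [atomX_gt h] at ht
    · rw [atomX_deg_self] at ht
      rw [(Finsupp.single_apply_ne_zero.1 ht).1]
  | succ j ih =>
    intro k e t hk ht
    by_cases h : (simplexADC m).deg c ≤ k + j
    · exact ih k e t h ht
    rw [atomX_succ (by omega)] at ht
    obtain ⟨s, hs, hst⟩ := exists_of_bd (part_ne_zero ht)
    exact (subset_of_d hst).trans (ih (k + 1) e s (by omega) hs)

theorem card_of_atomX {c : Bs m} {k : ℕ} {e : Bool} {t : Bs m}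
    (h : (simplexADC m).atomX c k e t ≠ 0) : t.1.card = k + 1 := by
  have h1 : t.1.card - 1 = k := atomX_deg deg_d c _ k e t (Nat.le_add_left _ _) h
  have := t.2.card_pos
  omega

section Cone

variable {v : Fin (m + 1)} {c : Bs m}

theorem above_atomX (h : Above v c) (k : ℕ) (e : Bool) (t : Bs m)
    (ht : (simplexADC m).atomX c k e t ≠ 0) : Above v t :=
  fun y hy => h y (atomX_subset c _ k e t (Nat.le_add_left _ _) ht hy)

theorem bd_coneN (h : Above v c) (k : ℕ) :
    (simplexADC m).bd (coneN v ((simplexADC m).atomX c k true)) =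
      (simplexADC m).toZ ((simplexADC m).atomX c k true) -
        coneZ v ((simplexADC m).bd ((simplexADC m).atomX c k true)) -
        eps ((simplexADC m).toZ ((simplexADC m).atomX c k true)) • Finsupp.single (pt v) (1 : ℤ) := by
  rw [← bdZ_toZ, toZ_coneN, bdZ_coneZ, bdZ_toZ]
  intro t ht
  refine above_atomX h k true t fun h0 => ht ?_
  rw [toZ_apply, h0]
  rfl

/-- The atom of a cone. -/
theorem atom_cone (h : Above v c) :
    ∀ j k, c.1.card ≤ k + 1 + j →
      (simplexADC m).atomX (cone v c) (k + 1) true =
          (simplexADC m).atomX c (k + 1) true + coneN v ((simplexADC m).atomX c k false) ∧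
        (simplexADC m).atomX (cone v c) (k + 1) false =
          coneN v ((simplexADC m).atomX c k true) := by
  have hcd : (simplexADC m).deg (cone v c) = c.1.card := by
    show (cone v c).1.card - 1 = _
    rw [card_cone h]
    omega
  have hcc : (simplexADC m).deg c + 1 = c.1.card := by
    show c.1.card - 1 + 1 = _
    have := c.2.card_pos
    omega
  intro j
  induction j with
  | zero =>
    intro k hk
    rcases Nat.lt_or_eq_of_le (show c.1.card ≤ k + 1 from hk) with hlt | heq
    · rw [atomX_gt (by omega), atomX_gt (by omega), atomX_gt (by omega), atomX_gt (by omega),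
        atomX_gt (by omega)]
      simp
    · have e1 : k + 1 = (simplexADC m).deg (cone v c) := by omega
      have e2 : k = (simplexADC m).deg c := by omega
      rw [atomX_gt (b := c) (by omega), e1, atomX_deg_self, atomX_deg_self, e2, atomX_deg_self,
        atomX_deg_self, coneN_single]
      simp
  | succ j ih =>
    intro k hk
    by_cases hkj : c.1.card ≤ k + 1 + j
    · exact ih k hkj
    have hlt : k + 1 < (simplexADC m).deg (cone v c) := by omega
    have hz := bd_coneN h (k + 1)
    rw [atomX_boundary dd c k true, eps_zero_of (fun t ht => ?_), zero_smul, sub_zero,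
      ← (ih (k + 1) (by omega)).2] at hz
    swap
    · have ht' : (simplexADC m).atomX c (k + 1) true t ≠ 0 := fun h0 => ht (by
        rw [toZ_apply, h0]; rfl)
      rw [card_of_atomX ht']
      omega
    have hz' : (simplexADC m).bd ((simplexADC m).atomX (cone v c) (k + 1 + 1) false) =
        (simplexADC m).toZ ((simplexADC m).atomX c (k + 1) true +
          coneN v ((simplexADC m).atomX c k false)) -
        (simplexADC m).toZ (coneN v ((simplexADC m).atomX c k true)) := by
      rw [hz, toZ_add, toZ_coneN, toZ_coneN, map_sub]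
      abel
    have hdisj : ∀ t, ((simplexADC m).atomX c (k + 1) true +
        coneN v ((simplexADC m).atomX c k false)) t = 0 ∨
        coneN v ((simplexADC m).atomX c k true) t = 0 := by
      intro t
      by_contra hne
      push Not at hne
      obtain ⟨d, hd, rfl⟩ := exists_of_coneN hne.2
      have hA := above_atomX h k true d hd
      rw [Finsupp.add_apply, coneN_apply_cone (above_atomX h k false) hA] at hne
      have h1 : (simplexADC m).atomX c (k + 1) true (cone v d) = 0 := by
        by_contra h1
        exact lt_irrefl v (above_atomX h _ _ _ h1 v (Finset.mem_insert_self _ _))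
      rw [h1, zero_add] at hne
      rw [atomX_succ (show k < (simplexADC m).deg c by omega) true,
        atomX_bd_eq dd c _ (k + 1) (Nat.le_add_left _ _)] at hd
      rw [atomX_succ (show k < (simplexADC m).deg c by omega) false] at hne
      rcases part_disjoint (K := simplexADC m)
        ((simplexADC m).bd ((simplexADC m).atomX c (k + 1) false)) d with h' | h'
      · exact hd h'
      · exact hne.1 h'
    obtain ⟨hp, hn⟩ := part_eq hz' hdisj
    refine ⟨?_, ?_⟩
    · rw [atomX_succ hlt true, atomX_bd_eq dd (cone v c) _ (k + 1 + 1) (Nat.le_add_left _ _)]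
      exact hp
    · rw [atomX_succ hlt false]
      exact hn

theorem atom_cone_zero (h : Above v c)
    (hu : ((simplexADC m).atomX c 0 true).sum (fun _ r => r) = 1) :
    (simplexADC m).atomX (cone v c) 0 true = (simplexADC m).atomX c 0 true ∧
      (simplexADC m).atomX (cone v c) 0 false = Finsupp.single (pt v) 1 := by
  have hlt : 0 < (simplexADC m).deg (cone v c) := by
    show 0 < (cone v c).1.card - 1
    rw [card_cone h]
    have := c.2.card_pos
    omega
  have hz := bd_coneN h 0
  have hd0 : (simplexADC m).bd ((simplexADC m).atomX c 0 true) = 0 := by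
    by_contra hne
    obtain ⟨t, ht⟩ := Finsupp.ne_iff.1 hne
    obtain ⟨s, hs, hst⟩ := exists_of_bd ht
    exact hst (by rw [d_point s (card_of_atomX hs)]; rfl)
  rw [hd0, map_zero, sub_zero, eps_toZ (fun t ht => card_of_atomX ht), hu, Nat.cast_one, one_smul,
    ← (atom_cone h c.1.card 0 (Nat.le_add_left _ _)).2] at hz
  have hz' : (simplexADC m).bd ((simplexADC m).atomX (cone v c) (0 + 1) false) =
      (simplexADC m).toZ ((simplexADC m).atomX c 0 true) -
        (simplexADC m).toZ (Finsupp.single (pt v) 1) := by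
    rw [hz, toZ_single, Nat.cast_one]
  have hdisj : ∀ t, (simplexADC m).atomX c 0 true t = 0 ∨ Finsupp.single (pt v) 1 t = 0 := by
    intro t
    by_contra hne
    push Not at hne
    obtain ⟨rfl, -⟩ := Finsupp.single_apply_ne_zero.1 hne.2
    exact lt_irrefl v (above_atomX h _ _ _ hne.1 v (Finset.mem_singleton_self _))
  obtain ⟨hp, hn⟩ := part_eq hz' hdisj
  refine ⟨?_, ?_⟩
  · rw [atomX_succ hlt true, atomX_bd_eq dd (cone v c) _ (0 + 1) (Nat.le_add_left _ _)]
    exact hp
  · rw [atomX_succ hlt false]
    exact hn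

end Cone

theorem unital (c : Bs m) (e : Bool) :
    ((simplexADC m).atomX c 0 e).sum (fun _ r => r) = 1 := by
  suffices h : ∀ n (c : Bs m), c.1.card ≤ n →
      ∀ e, ((simplexADC m).atomX c 0 e).sum (fun _ r => r) = 1 from h _ c le_rfl e
  intro n
  induction n with
  | zero => intro c hc; have := c.2.card_pos; omega
  | succ n ih =>
    intro c hc e
    rcases Nat.lt_or_ge c.1.card 2 with h | h
    · have h0 : (simplexADC m).deg c = 0 := by
        show c.1.card - 1 = 0
        omega
      have := atomX_deg_self (K := simplexADC m) c e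
      rw [h0] at this
      rw [this, Finsupp.sum_single_index rfl]
    obtain ⟨v, c', hab, rfl, hcard⟩ := exists_cone c h
    have hu := ih c' (by omega)
    cases e
    · rw [(atom_cone_zero hab (hu true)).2, Finsupp.sum_single_index rfl]
    · rw [(atom_cone_zero hab (hu true)).1, hu true]

/-! ### The order -/

/-- The key of the alternating lexicographic order. -/
def key (s : Bs m) : Lex (Fin (m + 1) → ℤ) :=
  toLex fun x => if x ∈ s.1 then -(-1 : ℤ) ^ (s.1.filter (· < x)).card else 0

theorem key_injective : Function.Injective (key (m := m)) := by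
  intro s t h
  refine Subtype.ext (Finset.ext fun x => ?_)
  have hx := congrFun (congrArg ofLex h) x
  simp only [key, ofLex_toLex] at hx
  split_ifs at hx with h1 h2 h2 <;> simp_all

theorem key_lt_iff (s t : Bs m) :
    key s < key t ↔ ∃ i, (∀ j, j < i → ofLex (key s) j = ofLex (key t) j) ∧
      ofLex (key s) i < ofLex (key t) i := Iff.rfl

theorem order : ∃ r : Bs m → Bs m → Prop, IsStrictTotalOrder (Bs m) r ∧
    ∀ b c, ((simplexADC m).d b c < 0 → r c b) ∧ (0 < (simplexADC m).d b c → r b c) := by
  refine ⟨fun b c => key b < key c, ?_, fun b c => ?_⟩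
  · exact (RelEmbedding.preimage ⟨key (m := m), key_injective⟩
      (fun x y : Lex (Fin (m + 1) → ℤ) => x < y)).isStrictTotalOrder
  by_cases h : (simplexADC m).d b c = 0
  · simp [h]
  obtain ⟨a, ha, hb, hd⟩ := Interval.of_d_ne_zero h
  have hagree : ∀ j, j < a → ofLex (key b) j = ofLex (key c) j := by
    intro j hj
    have hmem : j ∈ b.1 ↔ j ∈ c.1 := by simp [hb, hj.ne]
    have hfil : b.1.filter (· < j) = c.1.filter (· < j) := by
      rw [hb, Finset.filter_insert, if_neg (not_lt.2 hj.le)]
    simp [key, hmem, hfil]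
  have hkb : ofLex (key b) a = -(-1 : ℤ) ^ (c.1.filter (· < a)).card := by
    have hfil : b.1.filter (· < a) = c.1.filter (· < a) := by
      rw [hb, Finset.filter_insert, if_neg (lt_irrefl a)]
    simp [key, hb, Finset.filter_insert]
  have hkc : ofLex (key c) a = 0 := by simp [key, ha]
  refine ⟨fun hneg => (key_lt_iff c b).2 ⟨a, fun j hj => (hagree j hj).symm, ?_⟩,
    fun hpos => (key_lt_iff b c).2 ⟨a, hagree, ?_⟩⟩
  · rw [hkb, hkc]; rw [hd] at hneg; omega
  · rw [hkb, hkc]; rw [hd] at hpos; omega

end

end Vale.Agent.P213.Steiner.Simplex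

namespace Vale.Agent.P213

/-- The simplex satisfies the order condition. -/
theorem simplexGood : Spec.SimplexGood := fun _ =>
  ⟨Steiner.Simplex.deg_d, Steiner.Simplex.dd, Steiner.Simplex.unital, Steiner.Simplex.order⟩

end Vale.Agent.P213
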