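import Vale.Agent.P213.Spec

/-!
A compatible family of functors on the skeleta is one functor.
-/

namespace Vale.Agent.P213

universe u

namespace Glue

variable {N : OmCat.{0}} {X : OmCat.{u}} (F : ∀ k, Fun (N.skel k) X)

/-- The family agrees along every inclusion of skeleta. -/
theorem agree (h : ∀ k q q', q'.1 = q.1 → (F (k + 1)).toFun q' = (F k).toFun q) {k l : ℕ}
    (hkl : k ≤ l) (q : (N.skel k).carrier) (q' : (N.skel l).carrier) (e : q'.1 = q.1) :
    (F l).toFun q' = (F k).toFun q := by
  induction l, hkl using Nat.le_induction with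
  | base => exact congrArg (F k).toFun (Subtype.ext e)
  | succ l hl ih =>
    have hq : N.s l q.1 = q.1 := by
      conv_rhs => rw [← q.2]
      conv_lhs => rw [← q.2, N.ss, min_eq_right hl]
    exact (h l ⟨q.1, hq⟩ q' e).trans (ih ⟨q.1, hq⟩ rfl)

theorem eq_of_val (h : ∀ k q q', q'.1 = q.1 → (F (k + 1)).toFun q' = (F k).toFun q) {k l : ℕ}
    (q : (N.skel k).carrier) (q' : (N.skel l).carrier) (e : q'.1 = q.1) :
    (F l).toFun q' = (F k).toFun q := by
  rcases le_total k l with hkl | hkl
  · exact agree F h hkl q q' e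
  · exact (agree F h hkl q' q e.symm).symm

theorem skel_comp {k : ℕ} (n : ℕ) (x y : (N.skel k).carrier) (e : N.t n x.1 = N.s n y.1) :
    ((N.skel k).comp n x y).1 = N.comp n x.1 y.1 :=
  congrArg Subtype.val (dif_pos e)

theorem skel_mono {k l : ℕ} (hkl : k ≤ l) {x : N.carrier} (hx : N.s k x = x) : N.s l x = x := by
  rw [← hx, N.ss, min_eq_right hkl]

open Classical in
/-- The glued functor. -/
noncomputable def glue (h : ∀ k q q', q'.1 = q.1 → (F (k + 1)).toFun q' = (F k).toFun q) :
    Fun N X where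
  toFun p := (F (Nat.find (N.bounded p))).toFun ⟨p, Nat.find_spec (N.bounded p)⟩
  map_s n p := by
    let K := Nat.find (N.bounded p)
    refine (eq_of_val F h ((N.skel K).s n ⟨p, Nat.find_spec (N.bounded p)⟩)
      ⟨N.s n p, Nat.find_spec (N.bounded (N.s n p))⟩ rfl).trans ?_
    exact (F K).map_s n _
  map_t n p := by
    let K := Nat.find (N.bounded p)
    refine (eq_of_val F h ((N.skel K).t n ⟨p, Nat.find_spec (N.bounded p)⟩)
      ⟨N.t n p, Nat.find_spec (N.bounded (N.t n p))⟩ rfl).trans ?_
    exact (F K).map_t n _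
  map_comp n x y e := by
    let K := Nat.find (N.bounded x) + Nat.find (N.bounded y)
    let x' : (N.skel K).carrier :=
      ⟨x, skel_mono (Nat.le_add_right _ _) (Nat.find_spec (N.bounded x))⟩
    let y' : (N.skel K).carrier :=
      ⟨y, skel_mono (Nat.le_add_left _ _) (Nat.find_spec (N.bounded y))⟩
    rw [eq_of_val F h x' ⟨x, Nat.find_spec (N.bounded x)⟩ rfl,
      eq_of_val F h y' ⟨y, Nat.find_spec (N.bounded y)⟩ rfl]
    refine (eq_of_val F h ((N.skel K).comp n x' y') _ (skel_comp n x' y' e).symm).trans ?_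
    exact (F K).map_comp n x' y' (Subtype.ext e)

theorem glue_spec (h : ∀ k q q', q'.1 = q.1 → (F (k + 1)).toFun q' = (F k).toFun q) (k : ℕ)
    (q : (N.skel k).carrier) : (glue F h).toFun q.1 = (F k).toFun q :=
  eq_of_val F h q _ rfl

end Glue

/-- A compatible family on the skeleta is one functor. -/
theorem freeGlue : Spec.FreeGlue.{u} := by
  intro K X F h
  refine ⟨Glue.glue F h, Glue.glue_spec F h, fun G hG => Fun.ext fun p => ?_⟩
  obtain ⟨k, hk⟩ := K.nu.bounded p
  exact (hG k ⟨p, hk⟩).trans (Glue.glue_spec F h k ⟨p, hk⟩).symm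

end Vale.Agent.P213
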