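import Vale.Agent.P213.Steiner.Atom
import Vale.Agent.P213.Cylinder.TensAtom

/-!
The cylinder of a good complex is good.
-/

namespace Vale.Agent.P213.ADC

variable {K : ADC}

theorem bdZ_emb (o : Option Bool) {k : ℕ} {z : K.B →₀ ℤ} (h : ∀ b, z b ≠ 0 → K.deg b = k) :
    K.tens.bdZ (emb o z) = emb o (K.bdZ z) + edgeTerm o k z := by
  induction z using Finsupp.induction with
  | zero => simp [edgeTerm]
  | single_add b r z hb hr ih =>
    have hk : K.deg b = k := h b (by simp [Finsupp.notMem_support_iff.1 hb, hr])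
    have hz : ∀ c, z c ≠ 0 → K.deg c = k := fun c hc => h c (by
      have : c ≠ b := fun e => hc (e ▸ Finsupp.notMem_support_iff.1 hb)
      simp [Ne.symm this, hc])
    have e : Finsupp.single b r = r • Finsupp.single b (1 : ℤ) := by simp
    rw [map_add, map_add, map_add, map_add, ih hz, e, map_zsmul, map_zsmul, map_zsmul, emb_single,
      bdZ_single, bdZ_single, one_smul, one_smul, map_zsmul, tens_d, hk]
    simp only [edgeTerm]
    split_ifs
    · simp only [map_add, map_zsmul, smul_add, smul_sub, smul_comm r ((-1 : ℤ) ^ k)]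
      abel
    · simp only [add_zero]

theorem bdZ_d (hK : K.Good) (b : K.B) : K.bdZ (K.d b) = 0 := by
  rw [bdZ, Finsupp.liftAddHom_apply]
  exact hK.dd b

theorem bdZ_single_one (b : K.B) : K.bdZ (Finsupp.single b 1) = K.d b := by
  rw [bdZ_single, one_smul]

theorem tens_dd (hK : K.Good) (p : K.tens.B) :
    ((K.tens.d p).sum fun c r => r • K.tens.d c) = 0 := by
  obtain ⟨b, o⟩ := p
  have hz : K.tens.bdZ (K.tens.d (b, o)) = 0 := by
    have hs : ∀ c, (Finsupp.single b (1 : ℤ)) c ≠ 0 → K.deg c = K.deg b := fun c hc => by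
      rw [(Finsupp.single_apply_ne_zero.1 hc).1]
    rw [tens_d, map_add]
    by_cases hd : K.deg b = 0
    · rw [hK.hd b hd, map_zero, map_zero, zero_add]
      simp only [edgeTerm]
      split_ifs
      · rw [map_zsmul, map_sub, bdZ_emb _ hs, bdZ_emb _ hs, bdZ_single_one, hK.hd b hd]
        simp [edgeTerm]
      · exact map_zero _
    · obtain ⟨q, hq⟩ := Nat.exists_eq_succ_of_ne_zero hd
      rw [bdZ_emb o (k := q) (fun c hc => by have := hK.deg_d b c hc; omega), bdZ_d hK,
        map_zero, zero_add]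
      simp only [edgeTerm]
      split_ifs
      · rw [map_zsmul, map_sub, bdZ_emb _ hs, bdZ_emb _ hs, bdZ_single_one, hq, pow_succ]
        simp [edgeTerm, smul_sub]
      · simp
  rw [bdZ, Finsupp.liftAddHom_apply] at hz
  exact hz

/-- The position of an edge point over a basis element of the given degree. -/
def pos (q : ℕ) : Option Bool → ℕ
  | none => 1
  | some o => if (decide (Even q) == o) then 2 else 0

theorem pos_inj (q : ℕ) {o o' : Option Bool} (h : pos q o = pos q o') : o = o' := by
  by_cases hq : Even q <;> rcases o with _ | (_ | _) <;> rcases o' with _ | (_ | _) <;>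
    simp [pos, hq] at h ⊢

/-- The order on the cylinder. -/
def tensRel (r : K.B → K.B → Prop) (p p' : K.B × Option Bool) : Prop :=
  r p.1 p'.1 ∨ (p.1 = p'.1 ∧ pos (K.deg p.1) p.2 < pos (K.deg p'.1) p'.2)

theorem tensRel_total (r : K.B → K.B → Prop) (hr : IsStrictTotalOrder K.B r) :
    IsStrictTotalOrder (K.B × Option Bool) (tensRel r) where
  irrefl p := by
    rintro (h | ⟨-, h⟩)
    · exact hr.irrefl _ h
    · exact lt_irrefl _ h
  trans p q s := by
    rintro (h | ⟨e, h⟩) (h' | ⟨e', h'⟩)
    · exact Or.inl (hr.trans _ _ _ h h')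
    · exact Or.inl (e' ▸ h)
    · exact Or.inl (e ▸ h')
    · exact Or.inr ⟨e.trans e', h.trans h'⟩
  trichotomous p q h₁ h₂ := by
    have e : p.1 = q.1 := hr.trichotomous _ _ (fun h => h₁ (Or.inl h)) (fun h => h₂ (Or.inl h))
    refine Prod.ext e (pos_inj (K.deg p.1) ?_)
    rcases lt_trichotomy (pos (K.deg p.1) p.2) (pos (K.deg p.1) q.2) with h | h | h
    · exact absurd (Or.inr ⟨e, e ▸ h⟩) h₁
    · exact h
    · exact absurd (Or.inr ⟨e.symm, e ▸ h⟩) h₂

theorem tens_d_cases (b : K.B) (o : Option Bool) (p : K.tens.B) (h : K.tens.d (b, o) p ≠ 0) :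
    (p.2 = o ∧ K.d b p.1 = K.tens.d (b, o) p) ∨
      (o = none ∧ p.1 = b ∧ ∃ x, p.2 = some x ∧
        K.tens.d (b, o) p = if x then (-1 : ℤ) ^ K.deg b else -(-1 : ℤ) ^ K.deg b) := by
  obtain ⟨c, o'⟩ := p
  rw [tens_d] at h ⊢
  by_cases ho : o' = o
  · subst ho
    refine Or.inl ⟨rfl, ?_⟩
    rw [Finsupp.add_apply, emb_apply_self]
    simp only [edgeTerm]
    split_ifs with hn
    · subst hn
      simp [emb_apply_ne]
    · simp
  · right
    rw [Finsupp.add_apply, emb_apply_ne o _ ho, zero_add] at h ⊢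
    simp only [edgeTerm] at h ⊢
    split_ifs at h ⊢ with hn
    · subst hn
      simp only [emb_single, Finsupp.smul_apply, Finsupp.sub_apply] at h ⊢
      by_cases hc : c = b
      · subst hc
        rcases o' with _ | (_ | _)
        · exact absurd rfl ho
        · refine ⟨?_, ?_, false, ?_, ?_⟩ <;> simp
        · refine ⟨?_, ?_, true, ?_, ?_⟩ <;> simp
      · simp [hc] at h
    · simp at h

theorem tens_good (hK : K.Good) : K.tens.Good where
  deg_d p p' h := by
    obtain ⟨b, o⟩ := p
    obtain ⟨c, o'⟩ := p'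
    rcases tens_d_cases b o (c, o') h with ⟨e, e'⟩ | ⟨e, e', x, e'', -⟩
    · dsimp only at e e'
      subst e
      have := hK.deg_d b c (e'.symm ▸ h)
      simp only
      omega
    · dsimp only at e e' e''
      subst e e' e''
      simp
  dd := tens_dd hK
  unital p e := by
    obtain ⟨b, o⟩ := p
    rcases o with _ | o
    · rw [atomX_none hK.hd (isAtom_atom hK b)]
      exact ((atom hK b).cyl hK.hd).aug e
    · rw [atomX_some, emb, Finsupp.mapDomain.addMonoidHom_apply,
        Finsupp.sum_mapDomain_index (fun _ => rfl) fun _ _ _ => rfl]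
      exact hK.unital b e
  order := by
    obtain ⟨r, hr, hrd⟩ := hK.order
    refine ⟨tensRel r, tensRel_total r hr, fun p p' => ?_⟩
    obtain ⟨b, o⟩ := p
    obtain ⟨c, o'⟩ := p'
    by_cases h0 : K.tens.d (b, o) (c, o') = 0
    · rw [h0]
      exact ⟨fun h => absurd h (lt_irrefl _), fun h => absurd h (lt_irrefl _)⟩
    rcases tens_d_cases b o (c, o') h0 with ⟨e, e'⟩ | ⟨e, e', x, e'', hx⟩
    · dsimp only at e e'
      rw [← e']
      exact ⟨fun h => Or.inl ((hrd b c).1 h), fun h => Or.inl ((hrd b c).2 h)⟩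
    · dsimp only at e e' e''
      subst e e' e''
      rw [hx]
      refine ⟨fun h => Or.inr ⟨rfl, ?_⟩, fun h => Or.inr ⟨rfl, ?_⟩⟩ <;>
        by_cases hq : Even (K.deg c) <;> cases x <;>
        simp_all [pos, Odd.neg_one_pow, Even.neg_one_pow, Nat.not_even_iff_odd]

end Vale.Agent.P213.ADC

namespace Vale.Agent.P213

/-- The cylinder of a good complex is good. -/
theorem tensGood : Spec.TensGood := fun _ hK => ADC.tens_good hK

end Vale.Agent.P213
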