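import Vale.Agent.P213.Steiner.Split

/-!
# P213: cells that are atoms above a level, cutting and exchanging them

An item of level `r` is a cell agreeing with one atom above `r`. A cell whose part above `r` is a
sum of atoms starts with the item of the least of them, and two adjacent items can be exchanged
when they are out of order.
-/

namespace Vale.Agent.P213.ADC

open CategoryTheory

noncomputable section

variable {K : ADC} [LinearOrder K.B] (hK : K.Ordered)

/-- `U` agrees with the atom of `b` above level `r`, and `b` has dimension at most `top`. -/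
structure IsItem (top r : ℕ) (b : K.B) (U : K.Cell) : Prop where
  lt : r < K.deg b
  le : K.deg b ≤ top
  eq : ∀ l e, r < l → U.x l e = K.atomX b l e

/-- The sum of atoms in degree `l`. -/
abbrev atomSum (S : K.B →₀ ℕ) (l : ℕ) (e : Bool) : K.B →₀ ℕ :=
  extN (fun c => K.atomX c l e) S

/-- The part of `U` above `r` is the sum of the atoms in `S`. -/
def Above (r : ℕ) (S : K.B →₀ ℕ) (x : K.Cell) : Prop :=
  ∀ l e, r < l → x.x l e = atomSum S l e

theorem atomSum_single (b : K.B) (l : ℕ) (e : Bool) :
    atomSum (Finsupp.single b 1) l e = K.atomX b l e := by rw [atomSum, extN_single, one_smul]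

include hK

theorem atomSum_deg {S : K.B →₀ ℕ} {l : ℕ} {e : Bool} {b : K.B} (h : atomSum S l e b ≠ 0) :
    K.deg b = l := by
  obtain ⟨c, -, hc⟩ := extN_ne h
  exact atomX_deg hK.good.deg_d c (K.deg c) l e b (by omega) hc

theorem atomSum_boundary (S : K.B →₀ ℕ) (l : ℕ) (e : Bool) :
    K.bd (atomSum S (l + 1) e) = K.toZ (atomSum S l true) - K.toZ (atomSum S l false) := by
  induction S using Finsupp.induction_linear with
  | zero => simp [atomSum, extN_zero, bd_zero]
  | add x y hx hy =>
    simp only [atomSum, extN_add, bd_add, toZ_add] at hx hy ⊢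
    rw [hx, hy]; abel
  | single c r =>
    simp only [atomSum, extN_single]
    induction r with
    | zero => simp [bd_zero]
    | succ r ih =>
      simp only [succ_nsmul, bd_add, toZ_add]
      rw [ih, atomX_boundary hK.good.dd]; abel

theorem atomSum_bounded (S : K.B →₀ ℕ) : ∃ N, ∀ l e, N < l → atomSum S l e = 0 := by
  classical
  refine ⟨S.support.sup K.deg, fun l e hl => ?_⟩
  refine Finset.sum_eq_zero fun c hc => ?_
  have := Finset.le_sup (f := K.deg) hc
  show S c • K.atomX c l e = 0
  rw [atomX_gt (by omega) e, smul_zero]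

/-- An item, from the part below `r` of a cell and two chains at level `r`. -/
theorem exists_item (x : K.Cell) {top r : ℕ} {b : K.B} (hb : r < K.deg b) (hb' : K.deg b ≤ top)
    (c : Bool → (K.B →₀ ℕ)) (hcdeg : ∀ e d, c e d ≠ 0 → K.deg d = r)
    (hcaug : r = 0 → (c false).sum (fun _ m => m) = 1)
    (hcbd : K.bd (c false) = K.bd (x.x r false))
    (hflow : K.toZ (c true) - K.toZ (c false) =
      K.toZ (K.atomX b r true) - K.toZ (K.atomX b r false)) :
    ∃ U : K.Cell, IsItem top r b U ∧ (∀ e, U.x r e = c e) ∧ ∀ l e, l < r → U.x l e = x.x l e := by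
  have hbd : K.bd (c true) = K.bd (c false) := bd_eq_of_flow hK.good.dd
    (g := K.atomX b (r + 1) false) (by rw [hflow, atomX_boundary hK.good.dd])
  refine ⟨mkCell x r c (fun l e => K.atomX b l e) hcdeg (fun h e => ?_) (fun e => ?_)
    (fun l e d _ hd => atomX_deg hK.good.deg_d b (K.deg b) l e d (by omega) hd)
    (fun e => by rw [atomX_boundary hK.good.dd, hflow])
    (fun l e _ => atomX_boundary hK.good.dd b l e) ⟨K.deg b, fun l e h => atomX_gt h e⟩,
    ⟨hb, hb', fun l e hl => ?_⟩, fun e => ?_, fun l e hl => ?_⟩
  · cases e
    · exact hcaug h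
    · subst h
      exact aug_of_flow hK.good hflow (hcaug rfl)
  · cases e
    · exact hcbd
    · exact hbd.trans hcbd
  · rw [mkCell_x, if_neg (by omega), if_neg (by omega)]
  · rw [mkCell_x, if_neg (lt_irrefl r), if_pos rfl]
  · rw [mkCell_x, if_pos hl]

theorem IsItem.flow {top r : ℕ} {b : K.B} {U : K.Cell} (h : IsItem top r b U) (u : K.B) :
    (U.x r true u : ℤ) - U.x r false u = K.atomX b r true u - K.atomX b r false u := by
  have h1 := congrArg (fun z : K.B →₀ ℤ => z u) (U.boundary r false)
  simp only [h.eq _ _ (Nat.lt_succ_self r), atomX_boundary hK.good.dd, Finsupp.sub_apply,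
    toZ_apply] at h1
  exact h1.symm

theorem IsItem.level_le {top r : ℕ} {b : K.B} {U : K.Cell} (h : IsItem top r b U) (u : K.B)
    (e : Bool) : K.atomX b r e u ≤ U.x r e u := by
  have h1 := h.flow hK u
  rcases hK.disjoint h.lt u with h2 | h2 <;> cases e <;> omega

/-- The level `r` chains of an item split off the chains of the atom. -/
theorem IsItem.sub_eq {top r : ℕ} {b : K.B} {U : K.Cell} (h : IsItem top r b U) :
    U.x r true = (U.x r false - K.atomX b r false) + K.atomX b r true := by
  ext u
  have h1 := h.flow hK u
  have h2 := h.level_le hK u false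
  simp only [Finsupp.add_apply, Finsupp.tsub_apply]
  omega

theorem exists_first {top r : ℕ} {x : K.Cell} {S : K.B →₀ ℕ} {m : K.B} (hm : r < K.deg m)
    (hm' : K.deg m ≤ top) (hmin : ∀ c, S c ≠ 0 → m ≤ c) (hS : ∀ c, S c ≠ 0 → r < K.deg c)
    (hx : Above r (Finsupp.single m 1 + S) x) :
    ∃ U y : K.Cell, IsItem top r m U ∧ Above r S y ∧ K.nu.t r U = K.nu.s r y ∧
      x = K.nu.comp r U y := by
  classical
  have htot : ∀ u, (x.x r true u : ℤ) - x.x r false u =
      (K.atomX m r true u - K.atomX m r false u) + K.bd (atomSum S (r + 1) false) u := by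
    intro u
    have h1 := congrArg (fun z : K.B →₀ ℤ => z u) (x.boundary r false)
    simp only [hx _ _ (Nat.lt_succ_self r), atomSum, extN_add, bd_add, Finsupp.add_apply,
      extN_single, one_smul, atomX_boundary hK.good.dd, Finsupp.sub_apply, toZ_apply] at h1
    exact h1.symm
  let mid : K.B →₀ ℕ := (x.x r false + K.atomX m r true) - K.atomX m r false
  have hpos : ∀ u, K.atomX m r false u ≤ x.x r false u + K.atomX m r true u := by
    intro u
    by_cases hu : K.atomX m r false u = 0
    · omega
    have hum : u < m := hK.neg_lt hm hu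
    have h2 : K.bd (atomSum S (r + 1) false) u ≤ 0 := by
      rw [atomSum, bd_extN, Finsupp.sum_apply]
      refine Finset.sum_nonpos fun c hc => ?_
      have hc' := Finsupp.mem_support_iff.1 hc
      show (S c • K.bd (K.atomX c (r + 1) false)) u ≤ 0
      rw [Finsupp.smul_apply]
      exact nsmul_nonpos (hK.bd_atom_nonpos (hS c hc')
        (not_lt.2 (hum.le.trans (hmin c hc'))) false) _
    have := htot u
    omega
  have hmid : ∀ u, (mid u : ℤ) = x.x r false u + K.atomX m r true u - K.atomX m r false u := by
    intro u
    have := hpos u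
    simp only [mid, Finsupp.tsub_apply, Finsupp.add_apply]
    omega
  have hflow : K.toZ mid - K.toZ (x.x r false) =
      K.toZ (K.atomX m r true) - K.toZ (K.atomX m r false) := by
    ext u
    simp only [Finsupp.sub_apply, toZ_apply, hmid]
    ring
  have hmdeg : ∀ d, mid d ≠ 0 → K.deg d = r := by
    intro d hd
    simp only [mid, Finsupp.tsub_apply, Finsupp.add_apply] at hd
    by_cases h : x.x r false d = 0
    · exact atomX_deg hK.good.deg_d m (K.deg m) r true d (by omega) (by omega)
    · exact x.deg_eq r false d h
  obtain ⟨U, hU, hUr, hUl⟩ := exists_item hK x hm hm' (fun e => if e then mid else x.x r false)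
    (fun e d hd => by cases e; exacts [x.deg_eq r false d hd, hmdeg d hd])
    (fun h => by subst h; exact x.aug false) rfl hflow
  have hbd : K.bd mid = K.bd (x.x r false) := bd_eq_of_flow hK.good.dd
    (g := K.atomX m (r + 1) false) (by rw [atomX_boundary hK.good.dd, hflow])
  let y : K.Cell := mkCell x r (fun e => if e then x.x r true else mid) (atomSum S)
    (fun e d hd => by cases e; exacts [hmdeg d hd, x.deg_eq r true d hd])
    (fun h e => by
      cases e
      · subst h; exact aug_of_flow hK.good hflow (x.aug false)
      · subst h; exact x.aug true)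
    (fun e => by
      cases e
      · exact hbd
      · exact bd_eq_of_flow hK.good.dd (g := x.x (r + 1) false) (x.boundary r false))
    (fun l e d _ hd => atomSum_deg hK hd)
    (fun e => by
      rw [atomSum_boundary hK]
      ext u
      have h1 := htot u
      rw [atomSum_boundary hK] at h1
      simp only [Finsupp.sub_apply, toZ_apply, if_true, Bool.false_eq_true, if_false, hmid] at h1 ⊢
      omega)
    (fun l e _ => atomSum_boundary hK S l e) (atomSum_bounded hK S)
  have hy : ∀ l e, y.x l e =
      if l < r then x.x l e else if l = r then (if e then x.x r true else mid) else atomSum S l e :=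
    fun _ _ => rfl
  have hc : K.nu.t r U = K.nu.s r y := by
    refine Cell.composable_iff.2 ⟨?_, fun l e hl => ?_⟩
    · rw [hUr, hy, if_neg (lt_irrefl r), if_pos rfl]
      simp
    · rw [hUl l e hl, hy, if_pos hl]
  refine ⟨U, y, hU, fun l e hl => by rw [hy, if_neg (by omega), if_neg (by omega)], hc,
    Cell.ext fun l e => ?_⟩
  show x.x l e = (Cell.comp r U y).x l e
  rw [Cell.comp_x hc, Cell.compX]
  split_ifs with h1 h2 h3
  · exact (hUl l e h1).symm
  · subst h2; rw [hy, if_neg (lt_irrefl l), if_pos rfl, h3]; rfl
  · subst h2; rw [hUr]; cases e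
    · rfl
    · simp at h3
  · rw [hU.eq l e (by omega), hy, if_neg h1, if_neg h2, hx l e (by omega)]
    simp only [atomSum, extN_add, extN_single, one_smul]

/-- Items in descending order come from one pair split along the level below. -/
theorem exists_swap {top q : ℕ} {b b' : K.B} {U W : K.Cell} (hU : IsItem top (q + 1) b' U)
    (hW : IsItem top (q + 1) b W) (hbb : b < b') (hc : K.nu.t (q + 1) U = K.nu.s (q + 1) W) :
    ∃ y z : K.Cell, IsItem top (q + 1) b y ∧ IsItem top (q + 1) b' z ∧
      K.nu.t q y = K.nu.s q z ∧ U = K.nu.comp q (K.nu.s (q + 1) y) z ∧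
      W = K.nu.comp q y (K.nu.t (q + 1) z) := by
  classical
  obtain ⟨hcr, hcl⟩ := Cell.composable_iff.1 hc
  have hfU := hU.flow hK
  have hfW := hW.flow hK
  have hge : ∀ u, K.atomX b (q + 1) false u + K.atomX b' (q + 1) false u ≤ U.x (q + 1) false u := by
    intro u
    have h1 := hU.level_le hK u false
    by_cases h0 : K.atomX b (q + 1) false u = 0
    · omega
    have h2 := hW.level_le hK u false
    have h3 : K.atomX b' (q + 1) true u = 0 := by
      by_contra hn
      exact lt_asymm ((hK.neg_lt hW.lt h0).trans hbb) (hK.lt_pos hU.lt hn)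
    have h4 := hfU u
    rw [← hcr] at h2
    omega
  let C : K.B →₀ ℕ := U.x (q + 1) false - K.atomX b (q + 1) false - K.atomX b' (q + 1) false
  have hC : ∀ u, U.x (q + 1) false u =
      C u + (K.atomX b (q + 1) false u + K.atomX b' (q + 1) false u) := by
    intro u
    have := hge u
    simp only [C, Finsupp.tsub_apply]
    omega
  let Cl : K.B →₀ ℕ := C.filter fun c => c ≤ b
  let Ch : K.B →₀ ℕ := C.filter fun c => ¬c ≤ b
  have hsum : Cl + Ch = C := Finsupp.filter_add_filter_not _ _
  have hCd : ∀ d, C d ≠ 0 → K.deg d = q + 1 := fun d hd =>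
    U.deg_eq _ false d (by have := hC d; omega)
  have hCld : ∀ d, Cl d ≠ 0 → K.deg d = q + 1 := fun d hd => hCd d (by
    simp only [Cl, Finsupp.filter_apply] at hd
    split_ifs at hd with h
    · exact hd
    · exact absurd rfl hd)
  have hChd : ∀ d, Ch d ≠ 0 → K.deg d = q + 1 := fun d hd => hCd d (by
    simp only [Ch, Finsupp.filter_apply] at hd
    split_ifs at hd with h
    · exact absurd rfl hd
    · exact hd)
  -- the chain at level `q` between the two halves
  have hqtot : ∀ u, (U.x q true u : ℤ) - U.x q false u =
      K.bd (Cl + K.atomX b (q + 1) false) u + K.bd (Ch + K.atomX b' (q + 1) false) u := by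
    intro u
    have e : U.x (q + 1) false =
        (Cl + K.atomX b (q + 1) false) + (Ch + K.atomX b' (q + 1) false) := by
      ext d
      have h1 := hC d
      rw [← hsum] at h1
      simp only [Finsupp.add_apply] at h1 ⊢
      omega
    have h1 := congrArg (fun z : K.B →₀ ℤ => z u) (U.boundary q false)
    simp only [e, bd_add, Finsupp.add_apply, Finsupp.sub_apply, toZ_apply] at h1 ⊢
    exact h1.symm
  have hqpos : ∀ u, 0 ≤ (U.x q false u : ℤ) + K.bd (Cl + K.atomX b (q + 1) false) u := by
    intro u
    by_cases hu : b ≤ u
    · have h1 : 0 ≤ K.bd Cl u := bd_nonneg fun c hc => by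
        by_contra hn
        have h2 := hK.neg (not_le.1 hn)
        have h3 : c ≤ b := by
          simp only [Cl, Finsupp.filter_apply] at hc
          split_ifs at hc with h
          · exact h
          · exact absurd rfl hc
        exact absurd (h2.trans_le h3) (not_lt.2 hu)
      have h4 := hK.bd_atom_nonneg (k := q) (Nat.lt_of_succ_lt hW.lt) (not_lt.2 hu) false
      rw [bd_add, Finsupp.add_apply]
      omega
    · have hlt : u < b := not_le.1 hu
      have h1 : K.bd Ch u ≤ 0 := bd_nonpos fun c hc => by
        by_contra hn
        have h2 := hK.pos (not_le.1 hn)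
        have h3 : ¬c ≤ b := by
          simp only [Ch, Finsupp.filter_apply] at hc
          split_ifs at hc with h
          · exact absurd rfl hc
          · exact h
        exact h3 (h2.trans hlt).le
      have h4 := hK.bd_atom_nonpos (k := q) (Nat.lt_of_succ_lt hU.lt)
        (not_lt.2 (hlt.trans hbb).le) false
      have h5 := hqtot u
      simp only [bd_add, Finsupp.add_apply] at h5 ⊢
      omega
  let m : K.B →₀ ℕ := Finsupp.mapRange Int.toNat rfl
    (K.toZ (U.x q false) + K.bd (Cl + K.atomX b (q + 1) false))
  have hm : ∀ u, (m u : ℤ) = U.x q false u + K.bd (Cl + K.atomX b (q + 1) false) u := by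
    intro u
    have := hqpos u
    simp only [m, Finsupp.mapRange_apply, Finsupp.add_apply, toZ_apply] at this ⊢
    omega
  have hmb : K.bd (Cl + K.atomX b (q + 1) false) = K.toZ m - K.toZ (U.x q false) := by
    ext u
    simp only [Finsupp.sub_apply, toZ_apply, hm]
    ring
  have hmb' : K.bd (Ch + K.atomX b' (q + 1) false) = K.toZ (U.x q true) - K.toZ m := by
    ext u
    have := hqtot u
    simp only [Finsupp.sub_apply, toZ_apply, hm]
    omega
  have hmd : ∀ d, m d ≠ 0 → K.deg d = q := by
    intro d hd
    by_contra hne
    have h1 : U.x q false d = 0 := by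
      by_contra h; exact hne (U.deg_eq q false d h)
    have h2 : K.bd (Cl + K.atomX b (q + 1) false) d = 0 := by
      by_contra h
      obtain ⟨s, hs, hst⟩ := exists_of_bd h
      have h3 := hK.good.deg_d s d hst
      have h4 : K.deg s = q + 1 := by
        simp only [Finsupp.add_apply, ne_eq, Nat.add_eq_zero_iff, not_and_or] at hs
        rcases hs with hs | hs
        · exact hCld s hs
        · exact atomX_deg hK.good.deg_d b (K.deg b) (q + 1) false s (by omega) hs
      omega
    have h5 := hm d
    rw [h1, h2] at h5
    simp at h5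
    exact hd h5
  have hmbd : K.bd m = K.bd (U.x q false) := bd_eq_of_flow hK.good.dd hmb
  -- the two base cells
  have hUq : ∀ e, K.bd (U.x q e) = K.bd (U.x q false) := fun e => by
    cases e
    · rfl
    · exact bd_eq_of_flow hK.good.dd (U.boundary q false)
  have aug_mid : q = 0 → (m.sum fun _ r => r) = 1 := by
    rintro rfl
    -- the augmentation of a boundary is zero
    let s : (K.B →₀ ℤ) →+ ℤ := Finsupp.liftAddHom fun _ => AddMonoidHom.id ℤ
    have hs : ∀ c : K.B →₀ ℕ, s (K.toZ c) = ((c.sum fun _ r => r : ℕ) : ℤ) := by
      intro c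
      induction c using Finsupp.induction_linear with
      | zero => simp [toZ_zero]
      | add x y hx hy =>
        rw [toZ_add, map_add, hx, hy, Finsupp.sum_add_index' (fun _ => rfl) (fun _ _ _ => rfl),
          Nat.cast_add]
      | single d r => simp [s, toZ_single]
    have key : ∀ g : K.B →₀ ℕ, (∀ d, g d ≠ 0 → K.deg d = 1) → s (K.bd g) = 0 := by
      intro g hg
      rw [bd, map_finsuppSum]
      refine Finset.sum_eq_zero fun d hd => ?_
      show s (g d • K.d d) = 0
      have h1 := atomX_boundary hK.good.dd d 0 false
      rw [show (0 : ℕ) + 1 = K.deg d by have := hg d (Finsupp.mem_support_iff.1 hd); omega,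
        atomX_deg_self, bd_single, one_smul] at h1
      rw [map_nsmul, h1, map_sub, hs, hs, hK.good.unital, hK.good.unital, sub_self, smul_zero]
    have h0 := congrArg s hmb
    rw [map_sub, hs, hs, U.aug false, key _ (fun d hd => by
      simp only [Finsupp.add_apply, ne_eq, Nat.add_eq_zero_iff, not_and_or] at hd
      rcases hd with hd | hd
      · exact hCld d hd
      · exact atomX_deg hK.good.deg_d b (K.deg b) 1 false d (by omega) hd)] at h0
    omega
  let yl : K.Cell := mkCell U q (fun e => if e then m else U.x q false)
    (fun l _ => if l = q + 1 then Cl + K.atomX b (q + 1) false else 0)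
    (fun e d hd => by cases e; exacts [U.deg_eq q false d hd, hmd d hd])
    (fun h e => by cases e; exacts [h ▸ U.aug false, aug_mid h])
    (fun e => by cases e; exacts [rfl, hmbd])
    (fun l e d hl hd => by
      split_ifs at hd with h
      · simp only [Finsupp.add_apply, ne_eq, Nat.add_eq_zero_iff, not_and_or] at hd
        rcases hd with hd | hd
        · rw [h]; exact hCld d hd
        · rw [h]; exact atomX_deg hK.good.deg_d b (K.deg b) (q + 1) false d (by omega) hd
      · simp at hd)
    (fun e => by simpa using hmb)
    (fun l e hl => by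
      rw [if_neg (by omega)]
      split_ifs with h <;> simp [bd_zero])
    ⟨q + 1, fun l e hl => if_neg (by omega)⟩
  let zl : K.Cell := mkCell U q (fun e => if e then U.x q true else m)
    (fun l _ => if l = q + 1 then Ch + K.atomX b' (q + 1) false else 0)
    (fun e d hd => by cases e; exacts [hmd d hd, U.deg_eq q true d hd])
    (fun h e => by cases e; exacts [aug_mid h, h ▸ U.aug true])
    (fun e => by cases e; exacts [hmbd, hUq true])
    (fun l e d hl hd => by
      split_ifs at hd with h
      · simp only [Finsupp.add_apply, ne_eq, Nat.add_eq_zero_iff, not_and_or] at hd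
        rcases hd with hd | hd
        · rw [h]; exact hChd d hd
        · rw [h]; exact atomX_deg hK.good.deg_d b' (K.deg b') (q + 1) false d (by omega) hd
      · simp at hd)
    (fun e => by simpa using hmb')
    (fun l e hl => by
      rw [if_neg (by omega)]
      split_ifs with h <;> simp [bd_zero])
    ⟨q + 1, fun l e hl => if_neg (by omega)⟩
  have hyl : ∀ l e, yl.x l e = if l < q then U.x l e else if l = q then
      (if e then m else U.x q false) else if l = q + 1 then Cl + K.atomX b (q + 1) false else 0 :=
    fun _ _ => rfl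
  have hzl : ∀ l e, zl.x l e = if l < q then U.x l e else if l = q then
      (if e then U.x q true else m) else if l = q + 1 then Ch + K.atomX b' (q + 1) false else 0 :=
    fun _ _ => rfl
  obtain ⟨y, hy, hyr, hyq⟩ := exists_item hK yl hW.lt hW.le
    (fun e => Cl + K.atomX b (q + 1) e)
    (fun e d hd => by
      simp only [Finsupp.add_apply, ne_eq, Nat.add_eq_zero_iff, not_and_or] at hd
      rcases hd with hd | hd
      · exact hCld d hd
      · exact atomX_deg hK.good.deg_d b (K.deg b) (q + 1) e d (by omega) hd)
    (fun h => absurd h (Nat.succ_ne_zero q))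
    (by rw [hyl, if_neg (by omega), if_neg (by omega), if_pos rfl])
    (by rw [toZ_add, toZ_add]; abel)
  obtain ⟨z, hz, hzr, hzq⟩ := exists_item hK zl hU.lt hU.le
    (fun e => Ch + K.atomX b' (q + 1) e)
    (fun e d hd => by
      simp only [Finsupp.add_apply, ne_eq, Nat.add_eq_zero_iff, not_and_or] at hd
      rcases hd with hd | hd
      · exact hChd d hd
      · exact atomX_deg hK.good.deg_d b' (K.deg b') (q + 1) e d (by omega) hd)
    (fun h => absurd h (Nat.succ_ne_zero q))
    (by rw [hzl, if_neg (by omega), if_neg (by omega), if_pos rfl])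
    (by rw [toZ_add, toZ_add]; abel)
  have hc0 : K.nu.t q y = K.nu.s q z := by
    refine Cell.composable_iff.2 ⟨?_, fun l e hl => ?_⟩
    · rw [hyq q true (by omega), hzq q false (by omega), hyl, hzl]; simp
    · rw [hyq l e (by omega), hzq l e (by omega), hyl, hzl, if_pos hl, if_pos hl]
  obtain ⟨e1, e2, -, -⟩ := K.nu.exch_composable (Nat.lt_succ_self q) hc0
  refine ⟨y, z, hy, hz, hc0, Cell.ext fun l e => ?_, Cell.ext fun l e => ?_⟩
  · show U.x l e = (Cell.comp q (Cell.face false (q + 1) y) z).x l e
    rw [Cell.comp_x e1, Cell.compX]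
    rcases lt_trichotomy l (q + 1) with hl | hl | hl
    · have hy' : (Cell.face false (q + 1) y).x l e = yl.x l e := by
        rw [Cell.face_x, if_pos hl, hyq l e hl]
      rw [hy', hzq l e hl, hyl, hzl]
      split_ifs with h1 h2 <;> first | rfl | (subst h2; cases e <;> simp at *) | omega
    · subst hl
      rw [if_neg (by omega), if_neg (by omega), Cell.face_x, if_neg (lt_irrefl _), if_pos rfl,
        hyr, hzr]
      ext u
      have h1 := hC u
      have h2 := hfU u
      rw [← hsum] at h1
      simp only [Finsupp.add_apply] at h1 ⊢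
      cases e <;> omega
    · rw [if_neg (by omega), if_neg (by omega), Cell.face_x, if_neg (by omega), if_neg (by omega),
        zero_add, hz.eq l e hl, hU.eq l e hl]
  · show W.x l e = (Cell.comp q y (Cell.face true (q + 1) z)).x l e
    rw [Cell.comp_x e2, Cell.compX]
    rcases lt_trichotomy l (q + 1) with hl | hl | hl
    · have hz' : (Cell.face true (q + 1) z).x l e = zl.x l e := by
        rw [Cell.face_x, if_pos hl, hzq l e hl]
      have hWl : W.x l e = U.x l e := (hcl l e hl).symm
      rw [hz', hyq l e hl, hyl, hzl, hWl]
      split_ifs with h1 h2 <;> first | rfl | (subst h2; cases e <;> simp at *) | omega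
    · subst hl
      rw [if_neg (by omega), if_neg (by omega), Cell.face_x, if_neg (lt_irrefl _), if_pos rfl,
        hyr, hzr]
      ext u
      have h1 := hC u
      have h2 := hfU u
      have h3 := hfW u
      rw [← hcr] at h3
      rw [← hsum] at h1
      simp only [Finsupp.add_apply] at h1 ⊢
      cases e
      · rw [← hcr]; omega
      · omega
    · rw [if_neg (by omega), if_neg (by omega), Cell.face_x, if_neg (by omega), if_neg (by omega),
        add_zero, hy.eq l e hl, hW.eq l e hl]

end

end Vale.Agent.P213.ADC
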