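import Vale.Agent.P213.Steiner.Atom

/-!
# P213: the order of a good basis, positive chains and splitting

Sources of a basis element lie below it and targets above it, in every degree. Hence the basis
elements of a chain can be cut at a threshold, and each part has a boundary of controlled sign.
-/

namespace Vale.Agent.P213

open CategoryTheory

universe u v

noncomputable section

theorem extN_zero {A B : Type} (h : A → (B →₀ ℕ)) : extN h 0 = 0 := Finsupp.sum_zero_index

theorem extN_add {A B : Type} (h : A → (B →₀ ℕ)) (c c' : A →₀ ℕ) :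
    extN h (c + c') = extN h c + extN h c' :=
  Finsupp.sum_add_index' (fun _ => zero_smul ℕ _) fun _ _ _ => add_smul _ _ _

theorem extN_single {A B : Type} (h : A → (B →₀ ℕ)) (a : A) (r : ℕ) :
    extN h (Finsupp.single a r) = r • h a :=
  Finsupp.sum_single_index (zero_smul ℕ _)

theorem extN_ne {A B : Type} {h : A → (B →₀ ℕ)} {c : A →₀ ℕ} {t : B} (ht : extN h c t ≠ 0) :
    ∃ a, c a ≠ 0 ∧ h a t ≠ 0 := by
  by_contra hn
  push Not at hn
  refine ht ?_
  rw [extN, Finsupp.sum, Finsupp.finsetSum_apply]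
  refine Finset.sum_eq_zero fun a ha => ?_
  rw [Finsupp.smul_apply, hn a (Finsupp.mem_support_iff.1 ha), smul_zero]

theorem extN_single_self {A : Type} (c : A →₀ ℕ) : extN (fun a => Finsupp.single a 1) c = c := by
  conv_rhs => rw [← c.sum_single]
  exact Finsupp.sum_congr fun a _ => by simp

/-! ### Laws of omega-categories used below -/

namespace OmCat

variable (Y : OmCat.{u}) {i q r : ℕ} {x y z : Y.carrier}

theorem s_eq_self_of_le (h : Y.s r x = x) (hri : r ≤ i) : Y.s i x = x := by
  conv_lhs => rw [← h, Y.ss, min_eq_right hri]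
  exact h

theorem t_eq_self_of_le (h : Y.s r x = x) (hri : r ≤ i) : Y.t i x = x := by
  conv_lhs => rw [← h, Y.ts, if_neg (by omega)]
  exact h

theorem fixed_s (hir : i ≤ r) (x : Y.carrier) : Y.s r (Y.s i x) = Y.s i x := by
  rw [Y.ss, min_eq_right hir]

theorem fixed_t (hir : i ≤ r) (x : Y.carrier) : Y.s r (Y.t i x) = Y.t i x := by
  rw [Y.st, if_neg (by omega)]

theorem comp_fixed (h : Y.t q x = Y.s q y) (hx : Y.s r x = x) (hy : Y.s r y = y) :
    Y.s r (Y.comp q x y) = Y.comp q x y := by
  have := (Y.skel_closed r).comp q x y hx hy h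
  exact this

/-- Cells composable along `q` stay composable after taking faces above `q`. -/
theorem exch_composable (hqr : q < r) (e : Y.t q y = Y.s q z) :
    Y.t q (Y.s r y) = Y.s q z ∧ Y.t q y = Y.s q (Y.t r z) ∧ Y.t q y = Y.s q (Y.s r z) ∧
      Y.t q (Y.t r y) = Y.s q z := by
  refine ⟨?_, ?_, ?_, ?_⟩
  · rw [Y.ts, if_pos hqr, e]
  · rw [Y.st, if_pos hqr, e]
  · rw [Y.ss, min_eq_left hqr.le, e]
  · rw [Y.tt, min_eq_left hqr.le, e]

theorem exch (hqr : q < r) (e : Y.t q y = Y.s q z) :
    Y.t r (Y.comp q (Y.s r y) z) = Y.s r (Y.comp q y (Y.t r z)) ∧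
      Y.comp r (Y.comp q (Y.s r y) z) (Y.comp q y (Y.t r z)) = Y.comp q y z := by
  obtain ⟨e1, e2, -, -⟩ := Y.exch_composable hqr e
  have f1 : Y.t r (Y.s r y) = Y.s r y := by rw [Y.ts, if_neg (lt_irrefl r)]
  have f2 : Y.t r z = Y.s r (Y.t r z) := by rw [Y.st, if_neg (lt_irrefl r)]
  refine ⟨?_, ?_⟩
  · rw [Y.t_comp r q _ _ e1, if_neg (by omega), Y.s_comp r q _ _ e2, if_neg (by omega), f1, ← f2]
  · rw [← Y.interchange q r _ _ _ _ hqr f1 f2 e1, Y.id_comp, Y.comp_id]

theorem exch' (hqr : q < r) (e : Y.t q y = Y.s q z) :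
    Y.t r (Y.comp q y (Y.s r z)) = Y.s r (Y.comp q (Y.t r y) z) ∧
      Y.comp r (Y.comp q y (Y.s r z)) (Y.comp q (Y.t r y) z) = Y.comp q y z := by
  obtain ⟨-, -, e1, e2⟩ := Y.exch_composable hqr e
  have f1 : Y.t r (Y.s r z) = Y.s r z := by rw [Y.ts, if_neg (lt_irrefl r)]
  have f2 : Y.t r y = Y.s r (Y.t r y) := by rw [Y.st, if_neg (lt_irrefl r)]
  refine ⟨?_, ?_⟩
  · rw [Y.t_comp r q _ _ e1, if_neg (by omega), Y.s_comp r q _ _ e2, if_neg (by omega), f1, ← f2]
  · rw [← Y.interchange q r _ _ _ _ hqr f2 f1 e1, Y.id_comp, Y.comp_id]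

end OmCat

namespace ADC

variable {K : ADC}

theorem bd_nonneg {c : K.B →₀ ℕ} {u : K.B} (h : ∀ s, c s ≠ 0 → 0 ≤ K.d s u) : 0 ≤ K.bd c u := by
  rw [bd, Finsupp.sum, Finsupp.finsetSum_apply]
  refine Finset.sum_nonneg fun s hs => ?_
  rw [Finsupp.smul_apply]
  exact nsmul_nonneg (h s (Finsupp.mem_support_iff.1 hs)) _

theorem bd_nonpos {c : K.B →₀ ℕ} {u : K.B} (h : ∀ s, c s ≠ 0 → K.d s u ≤ 0) : K.bd c u ≤ 0 := by
  rw [bd, Finsupp.sum, Finsupp.finsetSum_apply]
  refine Finset.sum_nonpos fun s hs => ?_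
  rw [Finsupp.smul_apply]
  exact nsmul_nonpos (h s (Finsupp.mem_support_iff.1 hs)) _

theorem bd_extN {S : K.B →₀ ℕ} (g : K.B → (K.B →₀ ℕ)) :
    K.bd (extN g S) = S.sum fun c r => r • K.bd (g c) := by
  induction S using Finsupp.induction_linear with
  | zero => rw [extN_zero, bd_zero, Finsupp.sum_zero_index]
  | add x y hx hy =>
    rw [extN_add, bd_add, hx, hy]
    exact (Finsupp.sum_add_index' (h := fun c r => r • K.bd (g c)) (fun c => zero_smul ℕ _)
      fun c _ _ => add_smul _ _ _).symm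
  | single c r =>
    rw [extN_single, Finsupp.sum_single_index (h := fun c r => r • K.bd (g c)) (zero_smul ℕ _)]
    induction r with
    | zero => simp [bd_zero]
    | succ r ih => rw [succ_nsmul, succ_nsmul, bd_add, ih]

theorem toZ_injective : Function.Injective K.toZ := by
  intro x y h
  ext b
  have := congrArg (fun z => z b) h
  simp only [toZ_apply] at this
  exact_mod_cast this

theorem bd_eq_of_flow (hdd : ∀ b, ((K.d b).sum fun c r => r • K.d c) = 0) {c c' g : K.B →₀ ℕ}
    (h : K.bd g = K.toZ c' - K.toZ c) : K.bd c' = K.bd c := by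
  have h1 := bdZ_bdZ hdd (K.toZ g)
  rw [bdZ_toZ, h, map_sub, bdZ_toZ, bdZ_toZ] at h1
  exact sub_eq_zero.1 h1

theorem aug_of_flow {b : K.B} (hK : K.Good) {c c' : K.B →₀ ℕ}
    (h : K.toZ c' - K.toZ c = K.toZ (K.atomX b 0 true) - K.toZ (K.atomX b 0 false))
    (hc : (c.sum fun _ r => r) = 1) : (c'.sum fun _ r => r) = 1 := by
  have h2 : K.toZ (c' + K.atomX b 0 false) = K.toZ (c + K.atomX b 0 true) := by
    rw [toZ_add, toZ_add, add_comm (K.toZ c)]
    exact sub_eq_sub_iff_add_eq_add.1 h
  have h3 := congrArg (fun z : K.B →₀ ℕ => z.sum fun _ r => r) (toZ_injective h2)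
  simp only [Finsupp.sum_add_index' (h := fun (_ : K.B) (r : ℕ) => r) (fun _ => rfl)
    (fun _ _ _ => rfl)] at h3
  rw [hc, hK.unital b true, hK.unital b false] at h3
  omega

/-! ### Cells fixed by a face -/

theorem Cell.x_of_fixed {p : K.Cell} {r l : ℕ} (h : Cell.face false r p = p) (hl : r < l)
    (e : Bool) : p.x l e = 0 := by
  rw [← h, Cell.face_x, if_neg (by omega), if_neg (by omega)]

theorem Cell.x_false_of_fixed {p : K.Cell} {r : ℕ} (h : Cell.face false r p = p) (e : Bool) :
    p.x r e = p.x r false := by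
  conv_lhs => rw [← h, Cell.face_x, if_neg (lt_irrefl r), if_pos rfl]

theorem Cell.fixed_of_zero {p : K.Cell} {r : ℕ} (h : ∀ l e, r < l → p.x l e = 0) :
    Cell.face false r p = p := by
  have hr : p.x r true = p.x r false := by
    have := p.boundary r false
    rw [h _ _ (Nat.lt_succ_self r), bd_zero, eq_comm, sub_eq_zero] at this
    exact toZ_injective this
  refine Cell.ext fun l e => ?_
  rw [Cell.face_x]
  split_ifs with h1 h2
  · rfl
  · subst h2; cases e
    · rfl
    · exact hr.symm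
  · exact (h l e (by omega)).symm

/-- A cell built from the part of `x` below level `r`, two chains there and chains above. -/
def mkCell (x : K.Cell) (r : ℕ) (c : Bool → (K.B →₀ ℕ)) (top : ℕ → Bool → (K.B →₀ ℕ))
    (hcdeg : ∀ e b, c e b ≠ 0 → K.deg b = r)
    (hcaug : r = 0 → ∀ e, (c e).sum (fun _ m => m) = 1)
    (hcbd : ∀ e, K.bd (c e) = K.bd (x.x r false))
    (htdeg : ∀ l e b, r < l → top l e b ≠ 0 → K.deg b = l)
    (htbd : ∀ e, K.bd (top (r + 1) e) = K.toZ (c true) - K.toZ (c false))
    (htbd' : ∀ l e, r < l → K.bd (top (l + 1) e) = K.toZ (top l true) - K.toZ (top l false))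
    (hbound : ∃ N, ∀ l e, N < l → top l e = 0) : K.Cell where
  x l e := if l < r then x.x l e else if l = r then c e else top l e
  deg_eq l e b hb := by
    split_ifs at hb with h1 h2
    · exact x.deg_eq l e b hb
    · rw [h2]; exact hcdeg e b hb
    · exact htdeg l e b (by omega) hb
  aug e := by
    rcases Nat.eq_zero_or_pos r with h | h
    · rw [if_neg (by omega), if_pos h.symm]; exact hcaug h e
    · rw [if_pos h]; exact x.aug e
  boundary l e := by
    rcases lt_trichotomy (l + 1) r with h | h | h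
    · rw [if_pos h, if_pos (by omega), if_pos (by omega)]
      exact x.boundary l e
    · rw [if_neg (by omega), if_pos h, if_pos (by omega), if_pos (by omega), hcbd e, ← h]
      exact x.boundary l false
    · rw [if_neg (by omega), if_neg (by omega), if_neg (show ¬l < r by omega),
        if_neg (show ¬l < r by omega)]
      by_cases hl : l = r
      · subst hl
        rw [if_pos rfl, if_pos rfl]
        exact htbd e
      · rw [if_neg hl, if_neg hl]
        exact htbd' l e (by omega)
  bounded := by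
    obtain ⟨N, hN⟩ := hbound
    exact ⟨N + r, fun l e hl => by rw [if_neg (by omega), if_neg (by omega)]; exact hN l e (by omega)⟩

theorem mkCell_x (x : K.Cell) (r : ℕ) (c top) (h1 h2 h3 h4 h5 h6 h7) (l : ℕ) (e : Bool) :
    (mkCell x r c top h1 h2 h3 h4 h5 h6 h7).x l e =
      if l < r then x.x l e else if l = r then c e else top l e := rfl

/-! ### The order -/

/-- A linear order for which sources precede and targets follow. -/
structure Ordered (K : ADC) [LinearOrder K.B] : Prop where
  good : K.Good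
  neg : ∀ {b c}, K.d b c < 0 → c < b
  pos : ∀ {b c}, 0 < K.d b c → b < c

theorem Good.exists_ordered (hK : K.Good) : ∃ _ : LinearOrder K.B, K.Ordered := by
  classical
  obtain ⟨r, hr, h⟩ := hK.order
  let : LinearOrder K.B := linearOrderOfSTO r
  exact ⟨inferInstance, { good := hK, neg := fun hbc => (h _ _).1 hbc, pos := fun hbc => (h _ _).2 hbc }⟩

variable [LinearOrder K.B]

theorem Ordered.atom_lt (hK : K.Ordered) {b : K.B} :
    ∀ j k c, K.deg b ≤ k + j → k < K.deg b →
      (K.atomX b k false c ≠ 0 → c < b) ∧ (K.atomX b k true c ≠ 0 → b < c) := by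
  intro j
  induction j with
  | zero => intro k c h h'; omega
  | succ j ih =>
    intro k c hk hlt
    have hstep : ∀ e s, K.atomX b (k + 1) e s ≠ 0 → s = b ∨
        (k + 1 < K.deg b ∧ (e = false → s < b) ∧ (e = true → b < s)) := by
      intro e s hs
      rcases Nat.lt_or_eq_of_le (show k + 1 ≤ K.deg b by omega) with h | h
      · refine Or.inr ⟨h, ?_, ?_⟩ <;> rintro rfl
        · exact (ih (k + 1) s (by omega) h).1 hs
        · exact (ih (k + 1) s (by omega) h).2 hs
      · rw [h, atomX_deg_self] at hs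
        exact Or.inl (Finsupp.single_apply_ne_zero.1 hs).1
    rw [atomX_succ hlt, atomX_succ hlt, part_apply, part_apply]
    simp only [Bool.false_eq_true, if_false, if_true]
    refine ⟨fun h => ?_, fun h => ?_⟩
    · have hn : K.bd (K.atomX b (k + 1) false) c < 0 := by omega
      obtain ⟨s, hs, hd⟩ : ∃ s, K.atomX b (k + 1) false s ≠ 0 ∧ K.d s c < 0 := by
        by_contra hc
        push Not at hc
        exact absurd (bd_nonneg hc) (by omega)
      rcases hstep false s hs with rfl | ⟨-, h1, -⟩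
      · exact hK.neg hd
      · exact (hK.neg hd).trans (h1 rfl)
    · have hn : 0 < K.bd (K.atomX b (k + 1) true) c := by omega
      obtain ⟨s, hs, hd⟩ : ∃ s, K.atomX b (k + 1) true s ≠ 0 ∧ 0 < K.d s c := by
        by_contra hc
        push Not at hc
        exact absurd (bd_nonpos hc) (by omega)
      rcases hstep true s hs with rfl | ⟨-, -, h2⟩
      · exact hK.pos hd
      · exact (h2 rfl).trans (hK.pos hd)

theorem Ordered.neg_lt (hK : K.Ordered) {b c : K.B} {k : ℕ} (h : k < K.deg b)
    (hc : K.atomX b k false c ≠ 0) : c < b :=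
  (hK.atom_lt (K.deg b) k c (by omega) h).1 hc

theorem Ordered.lt_pos (hK : K.Ordered) {b c : K.B} {k : ℕ} (h : k < K.deg b)
    (hc : K.atomX b k true c ≠ 0) : b < c :=
  (hK.atom_lt (K.deg b) k c (by omega) h).2 hc

theorem Ordered.disjoint (hK : K.Ordered) {b : K.B} {k : ℕ} (h : k < K.deg b) (c : K.B) :
    K.atomX b k true c = 0 ∨ K.atomX b k false c = 0 := by
  by_contra hn
  push Not at hn
  exact lt_asymm (hK.neg_lt h hn.2) (hK.lt_pos h hn.1)

theorem Ordered.bd_atom_nonneg (hK : K.Ordered) {b u : K.B} {k : ℕ} (h : k < K.deg b)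
    (hu : ¬u < b) (e : Bool) : 0 ≤ K.bd (K.atomX b (k + 1) e) u := by
  rw [atomX_boundary hK.good.dd, Finsupp.sub_apply, toZ_apply, toZ_apply]
  have : K.atomX b k false u = 0 := by
    by_contra hn; exact hu (hK.neg_lt h hn)
  omega

theorem Ordered.bd_atom_nonpos (hK : K.Ordered) {b u : K.B} {k : ℕ} (h : k < K.deg b)
    (hu : ¬b < u) (e : Bool) : K.bd (K.atomX b (k + 1) e) u ≤ 0 := by
  rw [atomX_boundary hK.good.dd, Finsupp.sub_apply, toZ_apply, toZ_apply]
  have : K.atomX b k true u = 0 := by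
    by_contra hn; exact hu (hK.lt_pos h hn)
  omega

end ADC

end

end Vale.Agent.P213
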